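import Vale.Agent.P280.H143.Cross
import Vale.Agent.P280.H60.Cho
import Vale.Agent.P280.H63Y.NoOpp2

/-! P280, T7, helper143: (Bd2). Boundary weights: from the adapted sources to all fixed points. -/

open DirectSum Vale.Agent.P280.T Vale.Agent.P280.H127

namespace Vale.Agent.P280.H143

open Vale.Agent.P280.N Vale.Agent.P280.H490 Vale.Agent.P280.N.H989 Vale.Agent.P280.H60

variable {r : ℕ} {R : Type} [CommRing R] [IsDomain R] [Algebra ℂ R]
  {𝒜 : ℕ × (Fin r → ℤ) → Submodule ℂ R} [GradedAlgebra 𝒜]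

/-! ### Multiplicity one -/

/-- Liftable boundary weights have no opposites and multiplicity one. -/
theorem bd_one (H : H63X.Hyp 𝒜) {χ : Fin r → ℤ} {l : (Fin r → ℤ) →+ ℤ} (hpos : 0 < l χ)
    (hmax : ∀ ω, Wt 𝒜 ω → l ω ≤ l χ) (hL : ∀ z, Lf 𝒜 z χ) (hL' : ∀ z, Lf 𝒜 z (-χ)) :
    (∀ z : FP 𝒜, z.Pi χ → ¬ z.Pi (-χ)) ∧ ∀ z : FP 𝒜, One 𝒜 z χ := by
  have HY : H63Y.Hyp 𝒜 := ⟨H.hX, H.hN, H.iso, H.tor⟩
  have hlift : ∀ {ω : Fin r → ℤ}, (∀ z, Lf 𝒜 z ω) → Liftable 𝒜 ω := by
    intro ω h x ν hx0 hx _ v hv hvw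
    obtain ⟨D, hD, hDv⟩ := h ⟨x, ν, hx0, hx⟩ v hv hvw
    exact ⟨D, fun d m h hh => hD d m h hh, hDv⟩
  have hno : ∀ z : FP 𝒜, z.Pi χ → ¬ z.Pi (-χ) := fun z h1 h2 =>
    H63Y.no_opp_ext' HY (hlift hL) (hlift hL') hpos hmax h1 h2
  refine ⟨hno, fun z => ?_⟩
  by_cases hz : z.Pi χ
  · rcases H63X.mult_or_both H.hX (fun z => H.iso z.q z.ν z.nv z.fix) z hz with h | ⟨z', j, j', hj,
      hj', h1, h2⟩
    · exact h
    · exfalso
      have hmin := fun ω hω => H63X.neg_max H l hpos hmax ω hω
      have e1 := hmax _ ⟨z', h1⟩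
      have e2 := hmin _ ⟨z', h2⟩
      rw [map_nsmul, nsmul_eq_mul] at e1
      rw [map_neg, map_nsmul, nsmul_eq_mul] at e2
      have e3 : (j : ℤ) = 1 := by
        have : (1 : ℤ) ≤ j := by exact_mod_cast hj
        nlinarith
      have e4 : (j' : ℤ) = 1 := by
        have : (1 : ℤ) ≤ j' := by exact_mod_cast hj'
        nlinarith
      have e5 : j = 1 := by exact_mod_cast e3
      have e6 : j' = 1 := by exact_mod_cast e4
      rw [e5, one_smul] at h1
      rw [e6, one_smul] at h2
      exact hno z' h1 h2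
  · intro v v' hv hw hv' hw'
    have hχ0 : χ ≠ 0 := by
      rintro rfl
      rw [map_zero] at hpos
      exact lt_irrefl _ hpos
    refine ⟨1, 0, Or.inl one_ne_zero, fun h => ?_⟩
    have h1 : v h = 0 := by
      by_contra hne
      exact hz (tangentWeight_of_ne z.fix hχ0 hv hw (fun h0 => hne (by rw [h0]; rfl)))
    rw [h1, mul_zero, zero_mul, add_zero]

/-! ### The choice of the point -/

/-- Choice of a point in a set `P` of fixed points, where the norm is maximal for affine functions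
`κ i - g i ν`. -/
theorem exists_sel (H : H63X.Hyp 𝒜) {m : ℕ} (κ : Fin m → ℤ) (g : Fin m → (Fin r → ℤ) →+ ℤ)
    {P : FP 𝒜 → Prop} (hP : ∃ z, P z) : ∃ (z : FP 𝒜) (l' : (Fin r → ℤ) →+ ℤ), P z ∧
      (∀ y, P y → l' z.ν ≤ l' y.ν) ∧ (∀ ω, Wt 𝒜 ω → l' ω ≠ 0) ∧
      ∀ ω, Wt 𝒜 ω → l' ω < 0 → ∑ i, (κ i - g i z.ν) * g i ω ≤ 0 := by
  classical
  set A : FP 𝒜 → ℤ := fun y => ∑ i, (κ i - g i y.ν) * (κ i - g i y.ν) with hA
  have hAb : ∃ C : ℤ, ∀ y, A y ≤ C := by
    have h1 : ∀ i, ∃ K : ℤ, 0 ≤ K ∧ ∀ y : FP 𝒜, |κ i - g i y.ν| ≤ K := by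
      intro i
      obtain ⟨K, hK0, hK⟩ := nu_bound H (g i)
      refine ⟨|κ i| + K, by positivity, fun y => ?_⟩
      calc |κ i - g i y.ν| ≤ |κ i| + |g i y.ν| := abs_sub _ _
        _ ≤ |κ i| + K := by linarith [hK y]
    choose K hK0 hK using h1
    refine ⟨∑ i, K i * K i, fun y => Finset.sum_le_sum fun i _ => ?_⟩
    rw [← abs_mul_abs_self]
    exact mul_self_le_mul_self (abs_nonneg _) (hK i y)
  obtain ⟨C, hC⟩ := hAb
  obtain ⟨M, ⟨z0, hz0, hzM⟩, hM⟩ := Int.exists_greatest_of_bdd
    (P := fun n => ∃ y, P y ∧ A y = n) ⟨C, fun n ⟨y, _, hy⟩ => hy ▸ hC y⟩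
    (by obtain ⟨z, hz⟩ := hP; exact ⟨_, z, hz, rfl⟩)
  -- a generic functional
  obtain ⟨l, hl⟩ := H587.exists_generic ((H63X.C07.wt_finite H).union
    (Set.finite_singleton (0 : Fin r → ℤ)))
  have hl0 : ∀ ω, Wt 𝒜 ω → l ω ≠ 0 := by
    intro ω hω h0
    have h1 := hl (Or.inl hω) (Or.inr rfl : (0 : Fin r → ℤ) ∈ _) (by rw [h0, map_zero])
    exact H63X.c03_wt_ne_zero H hω h1
  obtain ⟨K1, hK10, hK1⟩ := nu_bound H l
  obtain ⟨K2, hK20, hK2⟩ := H63X.C07.wt_bound H l
  obtain ⟨m0, ⟨z, ⟨hz, hza⟩, hzm⟩, hm⟩ := Int.exists_least_of_bdd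
    (P := fun n => ∃ y, (P y ∧ ∀ i, g i y.ν = g i z0.ν) ∧ l y.ν = n)
    ⟨-K1, fun n ⟨y, _, hy⟩ => hy ▸ (abs_le.1 (hK1 y)).1⟩ ⟨_, z0, ⟨hz0, fun _ => rfl⟩, rfl⟩
  have hAz : A z = M := by
    rw [← hzM]
    exact Finset.sum_congr rfl fun i _ => by rw [hza i]
  set l0 : (Fin r → ℤ) →+ ℤ := ∑ i, (κ i - g i z.ν) • g i with hl0d
  have hl0v : ∀ ω, l0 ω = ∑ i, (κ i - g i z.ν) * g i ω := by
    intro ω
    rw [hl0d, AddMonoidHom.finsetSum_apply]
    exact Finset.sum_congr rfl fun i _ => by rw [AddMonoidHom.smul_apply, smul_eq_mul]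
  set K : ℤ := 2 * K1 + K2 + 1 with hK
  refine ⟨z, K • l0 + l, hz, ?_, ?_, ?_⟩
  · intro y hy
    rw [AddMonoidHom.add_apply, AddMonoidHom.add_apply, AddMonoidHom.smul_apply,
      AddMonoidHom.smul_apply, smul_eq_mul, smul_eq_mul]
    have h2 : 2 * (l0 y.ν - l0 z.ν) =
        (A z - A y) + ∑ i, (g i y.ν - g i z.ν) * (g i y.ν - g i z.ν) := by
      rw [hl0v, hl0v, hA, ← Finset.sum_sub_distrib, ← Finset.sum_sub_distrib, Finset.mul_sum,
        ← Finset.sum_add_distrib]
      exact Finset.sum_congr rfl fun i _ => by ring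
    have h3 : A y ≤ A z := by
      rw [hAz]
      exact hM _ ⟨y, hy, rfl⟩
    have h4 : 0 ≤ ∑ i, (g i y.ν - g i z.ν) * (g i y.ν - g i z.ν) :=
      Finset.sum_nonneg fun i _ => mul_self_nonneg _
    by_cases hall : ∀ i, g i y.ν = g i z.ν
    · have h5 : l0 y.ν = l0 z.ν := by
        rw [hl0v, hl0v]
        exact Finset.sum_congr rfl fun i _ => by rw [hall i]
      have h6 : l z.ν ≤ l y.ν := by
        rw [hzm]
        exact hm _ ⟨y, ⟨hy, fun i => by rw [hall i, hza i]⟩, rfl⟩
      rw [h5]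
      linarith
    · push Not at hall
      obtain ⟨i, hne⟩ := hall
      have h5 : 0 < ∑ i, (g i y.ν - g i z.ν) * (g i y.ν - g i z.ν) := by
        refine Finset.sum_pos' (fun i _ => mul_self_nonneg _) ⟨i, Finset.mem_univ i, ?_⟩
        exact mul_self_pos.2 (sub_ne_zero.2 hne)
      have h7 : 1 ≤ l0 y.ν - l0 z.ν := by omega
      have h8 := abs_le.1 (hK1 y)
      have h9 := abs_le.1 (hK1 z)
      nlinarith
  · intro ω hω
    rw [AddMonoidHom.add_apply, AddMonoidHom.smul_apply, smul_eq_mul]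
    have h1 := abs_le.1 (hK2 ω hω)
    rcases lt_trichotomy (l0 ω) 0 with h2 | h2 | h2
    · have : K * l0 ω + l ω < 0 := by nlinarith
      omega
    · rw [h2, mul_zero, zero_add]
      exact hl0 ω hω
    · have : 0 < K * l0 ω + l ω := by nlinarith
      omega
  · intro ω hω hneg
    rw [AddMonoidHom.add_apply, AddMonoidHom.smul_apply, smul_eq_mul] at hneg
    rw [← hl0v]
    by_contra hcon
    push Not at hcon
    have h1 := abs_le.1 (hK2 ω hω)
    nlinarith

/-! ### The values of a root at the points where the opposite root is not a tangent weight -/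

/-- The value of the root `χ` at the points `y` with `-χ` not in `Pi y`. -/
theorem exists_val (H : H63X.Hyp 𝒜) {N : ℤ} (hN : 0 < N) {χ : Fin r → ℤ}
    {β : (Fin r → ℤ) →+ ℤ} {E F : VF R} (hR : Root 𝒜 N χ β E F) :
    ∃ al : ℂ, ∀ y : FP 𝒜, ¬ y.Pi (-χ) → ∃ a : ℕ, -(al + (β y.ν : ℂ)) = (N : ℂ) * a ∧
      (a = 0 ↔ ¬ y.Pi χ) := by
  obtain ⟨E', hE'⟩ := Glob.exists_der hR.globE
  obtain ⟨F', hF'⟩ := Glob.exists_der hR.globF
  rw [← hE', ← hF'] at hR
  have hχ0 : χ ≠ 0 := by
    intro h0
    have h1 := hR.two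
    rw [h0, map_zero] at h1
    omega
  obtain ⟨al, hal⟩ := hR.br
  have hRt : Rt 𝒜 N χ β al E' F' := ⟨hR.hvE.isHField, hR.hvF.isHField, hR.two, fun d m h hh => by
      have h2 := hal d m h hh
      rw [← toVF_lie, toVF_iK, ← iK_smul, ← iK_neg] at h2
      have h3 := iK_inj h2
      rwa [Derivation.commutator_apply] at h3⟩
  refine ⟨al, fun y hy => ?_⟩
  obtain ⟨n, hn, hn0⟩ := hRt.orb H hN y (val_zero y (neg_ne_zero.2 hχ0) hRt.hF hy)
  refine ⟨n, hn, fun h h1 => hR.atE y h1 (not_valV_iff.2 (hn0 h)), fun h => ?_⟩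
  obtain ⟨n', hn', -⟩ := hRt.neg.orb H hN y (val_zero y hχ0 hRt.hE h)
  rw [AddMonoidHom.neg_apply] at hn'
  push_cast at hn'
  have h2 : (N : ℂ) * ((n : ℂ) + n') = 0 := by linear_combination -hn - hn'
  rcases mul_eq_zero.1 h2 with h3 | h3
  · exact absurd h3 (by exact_mod_cast hN.ne')
  · have h4 : n + n' = 0 := by exact_mod_cast h3
    omega

/-! ### The theorem -/

section
variable {N : ℤ} {lam : Fin r → ℤ} {m : ℕ} {e : Fin m → Fin r → ℤ} {L0 : (Fin r → ℤ) →+ ℤ}
  {β : Fin m → Bool → ((Fin r → ℤ) →+ ℤ)} {E F : Fin m → Bool → VF R}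

/-- The vertices of the face, if they are weights. -/
theorem vx_of_wt (H : H63X.Hyp 𝒜) (hN : 0 < N) (hmax : ∀ ω, Wt 𝒜 ω → L0 ω ≤ L0 lam)
    (hpos : 0 < L0 lam)
    (htop : ∀ ω, Wt 𝒜 ω → L0 ω = L0 lam → ω = lam ∨ ∃ j s, ω = vx lam e j s)
    (hlze : ∀ j, L0 (e j) = 0) (hbl : ∀ j s, β j s lam = N)
    (hbe : ∀ j s i, β j s (e i) = if i = j then sg s * N else 0) {j : Fin m} {s : Bool}
    (hw : Wt 𝒜 (vx lam e j s)) : Vx 𝒜 (vx lam e j s) := by
  obtain ⟨K, hK0, hK⟩ := H63X.c03_bound H (β j s)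
  have hv : ∀ ω, ((K + 2 * N + 1) • L0 + β j s) ω = (K + 2 * N + 1) * L0 ω + β j s ω := fun ω => by
    rw [AddMonoidHom.add_apply, AddMonoidHom.smul_apply, smul_eq_mul]
  have hLv : ∀ j' s', L0 (vx lam e j' s') = L0 lam := fun j' s' => by
    rw [vx, map_add, map_zsmul, hlze, smul_zero, add_zero]
  have hbv : ∀ j' s', β j s (vx lam e j' s') = N + sg s' * (if j' = j then sg s * N else 0) :=
    fun j' s' => by rw [vx, map_add, map_zsmul, hbl, hbe, smul_eq_mul]
  have hss : ∀ s : Bool, sg s * sg s = 1 := by decide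
  have h2N : β j s (vx lam e j s) = 2 * N := by
    rw [hbv, if_pos rfl, ← mul_assoc, hss]
    ring
  refine ⟨hw, (K + 2 * N + 1) • L0 + β j s, ?_, fun ω hω hne => ?_⟩
  · rw [hv, hLv, h2N]
    nlinarith
  · rw [hv, hv, hLv, h2N]
    rcases (hmax ω hω).lt_or_eq with h1 | h1
    · have h2 := (abs_le.1 (hK ω hω)).2
      nlinarith
    · rw [h1]
      rcases htop ω hω h1 with rfl | ⟨j', s', rfl⟩
      · rw [hbl]
        linarith
      · rw [hbv]
        by_cases h2 : j' = j
        · subst h2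
          have h3 : s' ≠ s := fun h => hne (by rw [h])
          rw [if_pos rfl, ← mul_assoc]
          have h4 : ∀ s s' : Bool, s' ≠ s → sg s' * sg s = -1 := by decide
          rw [h4 s s' h3]
          linarith
        · rw [if_neg h2, mul_zero]
          linarith

/-- **(Bd2).** The centre of a face is liftable at every fixed point, if it is at the adapted
sources. -/
theorem bd_all (H : H63X.Hyp 𝒜) (hN : 0 < N) (hpos : 0 < L0 lam)
    (hmax : ∀ ω, Wt 𝒜 ω → L0 ω ≤ L0 lam)
    (htop : ∀ ω, Wt 𝒜 ω → L0 ω = L0 lam → ω = lam ∨ ∃ j s, ω = vx lam e j s)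
    (hlze : ∀ j, L0 (e j) = 0)
    (hroot : ∀ j s, Root 𝒜 N (vx lam e j s) (β j s) (E j s) (F j s))
    (hbl : ∀ j s, β j s lam = N)
    (hbe : ∀ j s i, β j s (e i) = if i = j then sg s * N else 0)
    (hS : ∀ μ, Wt 𝒜 μ → L0 μ = 0 → (∃ j s, μ = sg s • e j) ∨
      ∃ i j s s', i ≠ j ∧ μ = sg s • e i + sg s' • e j)
    (hbase : ∀ c : (Fin r → ℤ) →+ ℤ, (∀ ω, Wt 𝒜 ω → c ω ≠ 0) → ∀ p : FP 𝒜,
      (∀ ψ, p.Pi ψ → 0 < L0 ψ ∨ (L0 ψ = 0 ∧ 0 < c ψ)) → Lf 𝒜 p lam) :
    ∀ z : FP 𝒜, Lf 𝒜 z lam := by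
  classical
  have hLv : ∀ j' s', L0 (vx lam e j' s') = L0 lam := fun j' s' => by
    rw [vx, map_add, map_zsmul, hlze, smul_zero, add_zero]
  have hss : ∀ s : Bool, sg s * sg s = 1 := by decide
  have hsn : ∀ s : Bool, sg (!s) = -sg s := by decide
  -- the points of the source component
  have hY : ∀ y : FP 𝒜, Pos L0 y → Lf 𝒜 y lam := by
    by_contra hcon
    push Not at hcon
    obtain ⟨z0, hz0, hz0L⟩ := hcon
    have hnotneg : ∀ (y : FP 𝒜), Pos L0 y → ∀ j s, ¬ y.Pi (-(vx lam e j s)) := by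
      intro y hy j s h
      have h1 := hy _ h
      rw [map_neg, hLv] at h1
      linarith
    choose al hal using fun (j : Fin m) (s : Bool) => exists_val H hN (hroot j s)
    choose a hav ha0 using fun (j : Fin m) (s : Bool) (y : FP 𝒜) (hy : Pos L0 y) =>
      hal j s y (hnotneg y hy j s)
    have hdif : ∀ j s (y : FP 𝒜) (hy : Pos L0 y),
        N * ((a j s y hy : ℤ) - a j s z0 hz0) = -(β j s y.ν - β j s z0.ν) := by
      intro j s y hy
      have h1 := hav j s y hy
      have h2 := hav j s z0 hz0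
      have h3 : ((N * ((a j s y hy : ℤ) - a j s z0 hz0) : ℤ) : ℂ) =
          ((-(β j s y.ν - β j s z0.ν) : ℤ) : ℂ) := by
        push_cast
        linear_combination h2 - h1
      exact_mod_cast h3
    obtain ⟨z, l', ⟨hz, hzL⟩, hmin, hgen, hneg⟩ := exists_sel H
      (fun j => N * ((a j true z0 hz0 : ℤ) - a j false z0 hz0) +
        (β j true - β j false) z0.ν) (fun j => β j true - β j false)
      (P := fun y => Pos L0 y ∧ ¬ Lf 𝒜 y lam) ⟨z0, hz0, hz0L⟩
    have hx : ∀ j, N * ((a j true z0 hz0 : ℤ) - a j false z0 hz0) +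
        (β j true - β j false) z0.ν - (β j true - β j false) z.ν =
        N * ((a j true z hz : ℤ) - a j false z hz) := by
      intro j
      have h1 := hdif j true z hz
      have h2 := hdif j false z hz
      rw [AddMonoidHom.sub_apply, AddMonoidHom.sub_apply]
      linear_combination h2 - h1
    apply hzL
    refine hbase l' hgen z fun ψ hψ => ?_
    rcases (hz ψ hψ).lt_or_eq with h0 | h0
    · exact Or.inl h0
    refine Or.inr ⟨h0.symm, ?_⟩
    by_contra hlt
    have hlt' : l' ψ < 0 := lt_of_le_of_ne (not_lt.1 hlt) (hgen ψ ⟨z, hψ⟩)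
    have hψ0 := H63X.ne_zero_of_pi H hψ
    -- the curve
    obtain ⟨y, n, f, hf⟩ := exists_curve_pi H z hψ
    obtain ⟨f', hf', -⟩ := H63X.exists_rev H hf
    have hn1 : (1 : ℤ) ≤ n := by exact_mod_cast hf.n1
    have hyY : Pos L0 y := by
      refine (H63X.low_iff H _ y).1 fun d m h hh hne => ?_
      have h1 := (H63X.low_iff H _ z).2 hz d m h hh hne
      have h2 : L0 y.ν = L0 z.ν := by
        rw [hf.nu, map_add, map_nsmul, ← h0, smul_zero, add_zero]
      rwa [h2]
    have hyL : Lf 𝒜 y lam := by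
      by_contra h1
      have h2 := hmin y ⟨hyY, h1⟩
      rw [hf.nu, map_add, map_nsmul, nsmul_eq_mul] at h2
      nlinarith
    have hne : ∀ k : ℕ, lam + k • -ψ ≠ 0 := by
      intro k hk
      have h1 := congrArg L0 hk
      rw [map_add, map_nsmul, map_neg, ← h0, neg_zero, smul_zero, add_zero, map_zero] at h1
      omega
    -- the weights `lam - k ψ`
    have hlamk : ∀ k : ℕ, 1 ≤ k → y.Pi (lam + k • -ψ) → ∃ j s, lam + k • -ψ = vx lam e j s := by
      intro k hk hpi
      rcases htop _ ⟨y, hpi⟩ (by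
        rw [map_add, map_nsmul, map_neg, ← h0, neg_zero, smul_zero, add_zero]) with h1 | h1
      · exfalso
        rw [add_eq_left] at h1
        rcases smul_eq_zero.1 h1 with h2 | h2
        · omega
        · exact hψ0 (neg_eq_zero.1 h2)
      · exact h1
    have hval : ∀ (k : ℕ) (j : Fin m) (s : Bool), lam + k • -ψ = vx lam e j s →
        ∀ i, -((k : ℤ) * β i true ψ) = if j = i then sg s * N else 0 := by
      intro k j s h i
      have h1 := congrArg (β i true) h
      rw [vx, map_add, map_add, map_nsmul, map_neg, map_zsmul, hbl, hbe, smul_eq_mul,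
        nsmul_eq_mul] at h1
      have h3 : sg true = 1 := rfl
      by_cases h2 : j = i
      · rw [if_pos h2] at h1 ⊢
        rw [h3] at h1
        linarith
      · rw [if_neg h2] at h1 ⊢
        linarith
    have hbψ : ∀ i j (s : Bool), β i true (sg s • e j) = if j = i then sg s * N else 0 := by
      intro i j s
      rw [map_zsmul, hbe, smul_eq_mul]
      split_ifs with h
      · have h3 : sg true = 1 := rfl
        rw [h3, one_mul]
      · rw [mul_zero]
    rcases hS ψ ⟨z, hψ⟩ h0.symm with ⟨j, s, hψe⟩ | ⟨i, j, s, s', hij, hψe⟩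
    · -- `ψ = ± e j`
      -- the only defect
      have hdef : ∀ k : ℕ, 1 ≤ k → y.Pi (lam + k • -ψ) → lam + k • -ψ = vx lam e j (!s) := by
        intro k hk hpi
        obtain ⟨j', s', h1⟩ := hlamk k hk hpi
        have h2 := hval k j' s' h1 j
        rw [hψe, hbψ, if_pos rfl] at h2
        have hk' : (1 : ℤ) ≤ k := by exact_mod_cast hk
        have hsN : sg s * N ≠ 0 := mul_ne_zero (by cases s <;> decide) hN.ne'
        by_cases h3 : j' = j
        · rw [if_pos h3] at h2
          have h4 : s' = !s := by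
            cases s <;> cases s' <;> simp only [sg] at h2 <;> simp <;> simp at h2 <;> nlinarith
          rw [h1, h3, h4]
        · rw [if_neg h3] at h2
          exfalso
          have h4 : (k : ℤ) * (sg s * N) ≠ 0 := mul_ne_zero (by omega) hsN
          exact h4 (by linarith)
      by_cases hv : z.Pi (vx lam e j (!s))
      · -- no defect
        apply hzL
        have hvx : Vx 𝒜 (vx lam e j (!s)) :=
          vx_of_wt H hN hmax hpos htop hlze hbl hbe ⟨z, hv⟩
        refine lf_step H hf' hne hyL fun k hk hpi => ?_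
        have h1 := hdef k hk hpi
        obtain ⟨E', hE'⟩ := Glob.exists_der (hroot j (!s)).globE
        have hfield : H93.IsHField 𝒜 (vx lam e j (!s)) E' := by
          have h2 := (hroot j (!s)).hvE
          rw [← hE'] at h2
          exact h2.isHField
        have hat : ∀ w : FP 𝒜, w.Pi (vx lam e j (!s)) → ∃ x, w.q (E' x) ≠ 0 := by
          intro w hw
          by_contra hcon
          push Not at hcon
          apply (hroot j (!s)).atE w hw
          rw [← hE']
          exact not_valV_iff.2 hcon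
        rw [h1] at hpi ⊢
        refine ⟨E', hfield, hat z hv, fun t ht htw => ?_⟩
        obtain ⟨c, c', hc, hcc⟩ := H.mult y _ hvx hpi t _ ht htw
          (H224.isTangent_value y.q E') (H224.hasWeight_value y.fix hfield)
        obtain ⟨x0, hx0⟩ := hat y hpi
        by_cases hc0 : c = 0
        · exfalso
          have h2 := hcc x0
          rw [hc0, zero_mul, zero_add] at h2
          rcases hc with h3 | h3
          · exact h3 hc0
          · exact hx0 ((mul_eq_zero.1 h2).resolve_left h3)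
        · refine ⟨-(c' / c), fun x => ?_⟩
          have h2 := hcc x
          change c * t x + c' * y.q (E' x) = 0 at h2
          field_simp
          linear_combination h2
      · -- both vertices are missing
        exfalso
        have hlam : z.Pi lam := by
          by_contra h1
          exact hzL (lf_of_not_pi z h1)
        have ha1 : a j (!s) z hz = 0 := (ha0 j (!s) z hz).2 hv
        have h1 := hneg ψ ⟨z, hψ⟩ hlt'
        have h2 : ∀ i, (β i true - β i false) ψ = if i = j then 2 * (sg s * N) else 0 := by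
          intro i
          rw [AddMonoidHom.sub_apply, hψe, map_zsmul, map_zsmul, hbe, hbe, smul_eq_mul,
            smul_eq_mul]
          have h3 : sg true = 1 := rfl
          have h4 : sg false = -1 := rfl
          by_cases h5 : j = i
          · rw [if_pos h5, if_pos h5, if_pos h5.symm, h3, h4]
            ring
          · rw [if_neg h5, if_neg h5, if_neg (Ne.symm h5)]
            ring
        have h3 : N * ((a j true z hz : ℤ) - a j false z hz) * (2 * (sg s * N)) ≤ 0 := by
          calc N * ((a j true z hz : ℤ) - a j false z hz) * (2 * (sg s * N)) =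
              ∑ i, (N * ((a i true z0 hz0 : ℤ) - a i false z0 hz0) +
                (β i true - β i false) z0.ν - (β i true - β i false) z.ν) *
                (β i true - β i false) ψ := by
                rw [Finset.sum_eq_single j]
                · rw [hx, h2, if_pos rfl]
                · intro i _ hi
                  rw [h2, if_neg hi, mul_zero]
                · intro h
                  exact absurd (Finset.mem_univ _) h
            _ ≤ 0 := h1
        have ha2 : a j s z hz = 0 := by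
          have hN2 : 0 < N * N := mul_pos hN hN
          cases s with
          | false =>
            rw [Bool.not_false] at ha1
            rw [ha1] at h3
            have h4 : sg false = -1 := rfl
            rw [h4] at h3
            push_cast at h3
            have h5 : (0 : ℤ) ≤ (a j false z hz : ℤ) := Int.natCast_nonneg _
            have h6 : (a j false z hz : ℤ) * (N * N) ≤ 0 := by nlinarith
            have h7 : (a j false z hz : ℤ) = 0 := by nlinarith
            exact_mod_cast h7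
          | true =>
            rw [Bool.not_true] at ha1
            rw [ha1] at h3
            have h4 : sg true = 1 := rfl
            rw [h4] at h3
            push_cast at h3
            have h5 : (0 : ℤ) ≤ (a j true z hz : ℤ) := Int.natCast_nonneg _
            have h6 : (a j true z hz : ℤ) * (N * N) ≤ 0 := by nlinarith
            have h7 : (a j true z hz : ℤ) = 0 := by nlinarith
            exact_mod_cast h7
        have hv2 : ¬ z.Pi (vx lam e j s) := (ha0 j s z hz).1 ha2
        have e1 := H63X.root_sub H hN (hroot j s) hv2 (hnotneg z hz j s) hlam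
          (by rw [hbl]; exact hN)
        have e2 : lam - vx lam e j s = -(sg s • e j) := by
          rw [vx]
          abel
        rw [e2] at e1
        have e3 := H63X.root_sub H hN (hroot j (!s)) hv (hnotneg z hz j (!s)) e1 (by
          rw [map_neg, map_zsmul, hbe, if_pos rfl, hsn, smul_eq_mul]
          have := hss s
          nlinarith)
        have e4 : -(sg s • e j) - vx lam e j (!s) = -lam := by
          rw [vx, hsn, neg_smul]
          abel
        rw [e4] at e3
        have h5 := hz _ e3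
        rw [map_neg] at h5
        linarith
    · -- `ψ = ± e i ± e j`
      apply hzL
      refine lf_step' H hf' hne (fun k hk hpi => ?_) hyL
      obtain ⟨j', s'', h1⟩ := hlamk k hk hpi
      have h2 := hval k j' s'' h1 i
      have h3 := hval k j' s'' h1 j
      rw [hψe, map_add, hbψ, hbψ, if_pos rfl, if_neg (Ne.symm hij), add_zero] at h2
      rw [hψe, map_add, hbψ, hbψ, if_pos rfl, if_neg hij, zero_add] at h3
      have hk' : (1 : ℤ) ≤ k := by exact_mod_cast hk
      have hsN : ∀ s : Bool, sg s * N ≠ 0 := fun s => mul_ne_zero (by cases s <;> decide) hN.ne'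
      by_cases h4 : j' = i
      · rw [if_neg (by rw [h4]; exact hij)] at h3
        have h5 : (k : ℤ) * (sg s' * N) ≠ 0 := mul_ne_zero (by omega) (hsN s')
        exact h5 (by linarith)
      · rw [if_neg h4] at h2
        have h5 : (k : ℤ) * (sg s * N) ≠ 0 := mul_ne_zero (by omega) (hsN s)
        exact h5 (by linarith)
  -- all points
  obtain ⟨K, hK⟩ := nu_bd H L0
  have key : ∀ (n : ℕ) (z : FP 𝒜), (L0 z.ν + K).toNat ≤ n → Lf 𝒜 z lam := by
    intro n
    induction n with
    | zero =>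
      intro z hz
      refine hY z fun ψ hψ => ?_
      by_contra hlt
      push Not at hlt
      obtain ⟨y, n, f, hf⟩ := exists_curve_pi H z hψ
      have h1 := hK y
      have h2 := hK z
      rw [hf.nu, map_add, map_nsmul, nsmul_eq_mul] at h1
      have hn1 : (1 : ℤ) ≤ n := by exact_mod_cast hf.n1
      have h3 : L0 z.ν + K = 0 := by omega
      nlinarith
    | succ n ih =>
      intro z hz
      by_cases hpz : Pos L0 z
      · exact hY z hpz
      unfold Pos at hpz
      push Not at hpz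
      obtain ⟨ψ, hψ, hlt⟩ := hpz
      obtain ⟨y, k, f, hf⟩ := exists_curve_pi H z hψ
      obtain ⟨f', hf', -⟩ := H63X.exists_rev H hf
      have hn1 : (1 : ℤ) ≤ k := by exact_mod_cast hf.n1
      have h1 := hK y
      have h2 : L0 y.ν < L0 z.ν := by
        rw [hf.nu, map_add, map_nsmul, nsmul_eq_mul]
        nlinarith
      have h3 : ∀ k : ℕ, L0 (lam + k • -ψ) = L0 lam + k * (-(L0 ψ)) := fun k => by
        rw [map_add, map_nsmul, map_neg, nsmul_eq_mul]
      refine lf_step' H hf' (fun k hk => ?_) (fun k hk hpi => ?_) (ih y (by omega))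
      · have h4 := h3 k
        rw [hk, map_zero] at h4
        have h5 : (0 : ℤ) ≤ k := Int.natCast_nonneg k
        nlinarith
      · have h4 := hmax _ ⟨y, hpi⟩
        rw [h3] at h4
        have h5 : (1 : ℤ) ≤ k := by exact_mod_cast hk
        nlinarith
  exact fun z => key _ z le_rfl

end

end Vale.Agent.P280.H143
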