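import Vale.Agent.P280.H143.F2
import Vale.Agent.P280.H224.Orb

/-! P280, T7, helper143: (C0) of END. If the orbit of a fixed point `z` under `exp(tD)` ends at a
point where the tangent space is generated by fields, then it is generated by fields at `z`. -/

open DirectSum Vale.Agent.P280.T Vale.Agent.P280.H127

namespace Vale.Agent.P280.H143

open Vale.Agent.P280.N Vale.Agent.P280.H224

variable {r : ℕ} {R : Type} [CommRing R] [IsDomain R] [Algebra ℂ R]
  {𝒜 : ℕ × (Fin r → ℤ) → Submodule ℂ R} [GradedAlgebra 𝒜]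

/-- A linear form which is `2` on a given weight. -/
theorem exists_form {w : Fin r → ℤ} (hw : w ≠ 0) : ∃ b : (Fin r → ℤ) →+ ℂ, b w = 2 := by
  obtain ⟨k, hk⟩ := Function.ne_iff.1 hw
  refine ⟨(AddMonoidHom.mulLeft (2 / (w k : ℂ))).comp
    ((Int.castAddHom ℂ).comp (Pi.evalAddMonoidHom _ k)), ?_⟩
  change (2 / (w k : ℂ)) * (w k : ℂ) = 2
  have : (w k : ℂ) ≠ 0 := by exact_mod_cast (by simpa using hk)
  field_simp

omit [IsDomain R] in
/-- The point `exp(D) z`. -/
theorem exists_exp (z : FP 𝒜) {w : Fin r → ℤ} (hw : w ≠ 0) {D : Derivation ℂ R R}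
    (hD : H93.IsHField 𝒜 w D) : ∃ p : R →ₐ[ℂ] ℂ,
      (∀ (d : ℕ) (m : Fin r → ℤ), ∀ h ∈ 𝒜 (d, m), ∀ k : ℕ, m = d • z.ν + k • w →
        p h = cl z.q D k h) ∧
      ∀ (d : ℕ) (m : Fin r → ℤ), ∀ h ∈ 𝒜 (d, m), p h ≠ 0 → ∃ k : ℕ, m = d • z.ν + k • w := by
  obtain ⟨b, hb⟩ := exists_form hw
  have hwt : ∀ (i : ℕ × (Fin r → ℤ)), ∀ x ∈ 𝒜 i, ∀ k, cl z.q D k x ≠ 0 → k = kk z.ν w i := by
    rintro ⟨d, m⟩ x hx k hk
    exact (kk_eq hb (cl_weight z.fix hD hx hk)).symm
  obtain ⟨p, hp⟩ := exists_algHom 𝒜 (fun i => cl z.q D (kk z.ν w i)) (by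
      have h1 : kk z.ν w ((0, 0) : ℕ × (Fin r → ℤ)) = 0 := kk_eq hb (by simp)
      change cl z.q D (kk z.ν w ((0, 0) : ℕ × (Fin r → ℤ))) 1 = 1
      rw [h1, cl_zero, map_one]) (by
      intro i j x hx g hg
      change cl z.q D (kk z.ν w (i + j)) (x * g) =
        cl z.q D (kk z.ν w i) x * cl z.q D (kk z.ν w j) g
      rw [cl_mul]
      by_cases h1 : cl z.q D (kk z.ν w i) x = 0
      · rw [h1, zero_mul]
        refine Finset.sum_eq_zero fun ij _ => ?_
        by_cases h2 : cl z.q D ij.1 x = 0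
        · rw [h2, zero_mul]
        · exact absurd h1 (by rw [← hwt i x hx _ h2]; exact h2)
      by_cases h3 : cl z.q D (kk z.ν w j) g = 0
      · rw [h3, mul_zero]
        refine Finset.sum_eq_zero fun ij _ => ?_
        by_cases h2 : cl z.q D ij.2 g = 0
        · rw [h2, mul_zero]
        · exact absurd h3 (by rw [← hwt j g hg _ h2]; exact h2)
      have e1 := cl_weight (d := i.1) (m := i.2) z.fix hD hx h1
      have e2 := cl_weight (d := j.1) (m := j.2) z.fix hD hg h3
      have e3 : kk z.ν w (i + j) = kk z.ν w i + kk z.ν w j := by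
        apply kk_eq (d := (i + j).1) (m := (i + j).2) hb
        rw [Prod.fst_add, Prod.snd_add, e1, e2, add_smul, add_smul]
        abel
      rw [e3]
      rw [Finset.sum_eq_single (kk z.ν w i, kk z.ν w j)]
      · rintro ⟨p, q⟩ hpq hne
        by_cases h2 : cl z.q D p x = 0
        · rw [h2, zero_mul]
        by_cases h4 : cl z.q D q g = 0
        · rw [h4, mul_zero]
        exact absurd (Prod.ext (hwt i x hx _ h2) (hwt j g hg _ h4)) hne
      · intro h
        exact absurd (Finset.HasAntidiagonal.mem_antidiagonal.2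
          (rfl : (kk z.ν w i, kk z.ν w j).1 + (kk z.ν w i, kk z.ν w j).2 = _)) h)
  refine ⟨p, ?_, ?_⟩
  · intro d m h hh k hk
    have h1 := hp (d, m) h hh
    rw [kk_eq hb hk] at h1
    exact h1
  · intro d m h hh hne
    have h1 := hp (d, m) h hh
    rw [h1] at hne
    exact ⟨_, cl_weight z.fix hD hh hne⟩

/-- **The curve `exp(tD) z`.** -/
theorem exists_curve_exp (H : H63X.Hyp 𝒜) (z : FP 𝒜) {w : Fin r → ℤ} (hw : w ≠ 0)
    {D : Derivation ℂ R R} (hD : H93.IsHField 𝒜 w D) {h0 : R} (hne : z.q (D h0) ≠ 0) :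
    ∃ (y : FP 𝒜) (n : ℕ) (φ : R →ₐ[ℂ] Polynomial ℂ), Curve z y w n φ ∧
      ∀ d m, ∀ h ∈ 𝒜 (d, m), ∀ k, (φ h).coeff k = cl z.q D k h := by
  classical
  obtain ⟨b, hb⟩ := exists_form hw
  obtain ⟨p, hp1, hp2⟩ := exists_exp z hw hD
  -- the tangent vector
  have hτt : IsTangent z.q (z.q.toLinearMap.comp (D : R →ₗ[ℂ] R)) := by
    intro x y
    change z.q (D (x * y)) = z.q x * z.q (D y) + z.q y * z.q (D x)
    rw [D.leibniz, smul_eq_mul, smul_eq_mul, map_add, map_mul, map_mul]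
  have hτw : HasWeight 𝒜 z.ν w (z.q.toLinearMap.comp (D : R →ₗ[ℂ] R)) := by
    intro d m h hh h1
    change z.q (D h) ≠ 0 at h1
    have h2 := z.fix d _ _ (hD d m h hh) h1
    rw [← h2]
    abel
  have hpi : z.Pi w := tangentWeight_of_ne z.fix hw hτt hτw
    (fun h => hne (LinearMap.congr_fun h h0))
  obtain ⟨y, n, φ, hφ, hφp⟩ := exists_curve_of_pt H.hX z hw hpi (p := p) (by
      intro v hv x hx
      refine coarse_induction (P := fun x => p x = 0) (map_zero p)
        (fun a b ha hb => by rw [map_add, ha, hb, add_zero]) ?_ hx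
      rintro ⟨d, m⟩ hi h hh
      by_contra hne
      obtain ⟨k, hk⟩ := hp2 d m h hh hne
      apply hv k
      rw [rl_apply, AddMonoidHom.id_apply] at hi
      rw [← hi, hk]
      abel) (by
      intro x hx
      refine coarse_induction (P := fun x => p x = z.q x) (by rw [map_zero, map_zero])
        (fun a b ha hb => by rw [map_add, map_add, ha, hb]) ?_ hx
      rintro ⟨d, m⟩ hi h hh
      rw [rl_apply, AddMonoidHom.id_apply, sub_eq_zero] at hi
      rw [hp1 d m h hh 0 (by rw [zero_smul, add_zero, hi]), cl_zero]) (by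
      by_contra hcon
      push Not at hcon
      have hz : z.q.toLinearMap.comp (D : R →ₗ[ℂ] R) = 0 := by
        apply linearMap_ext_graded 𝒜
        rintro ⟨d, m⟩ h hh
        rw [LinearMap.zero_apply]
        by_contra h1
        have hm := hτw d m h hh h1
        have h2 := hcon h (mem_coarse hh (by rw [rl_apply, AddMonoidHom.id_apply, hm]; abel))
        rw [hp1 d m h hh 1 (by rw [one_smul, hm]), cl_apply] at h2
        apply h1
        simpa using h2
      exact hne (LinearMap.congr_fun hz h0))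
    (fun y' j hj hj' => mult_le_two H ⟨z, hpi⟩ hj ⟨y', hj'⟩)
  refine ⟨y, n, φ, hφ, fun d m h hh k => ?_⟩
  by_cases hex : ∃ i : ℕ, m = d • z.ν + i • w
  · obtain ⟨i, rfl⟩ := hex
    rw [hφp d i h hh, Polynomial.coeff_monomial, hp1 d _ h hh i rfl]
    by_cases hik : i = k
    · rw [if_pos hik, hik]
    · rw [if_neg hik]
      by_contra h1
      exact hik (nsmul_inj hb (add_left_cancel (cl_weight z.fix hD hh (Ne.symm h1))))
  · have h1 : φ h = 0 := by
      by_contra h1
      obtain ⟨i, -, hi, -⟩ := hφ.hom d m h hh h1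
      exact hex ⟨i, hi⟩
    rw [h1, Polynomial.coeff_zero]
    by_contra h2
    exact hex ⟨k, cl_weight z.fix hD hh (Ne.symm h2)⟩

theorem dsum_apply {S : Type} [CommRing S] [Algebra ℂ S] {ι : Type} (s : Finset ι)
    (f : ι → Derivation ℂ S S) (x : S) : (∑ k ∈ s, f k) x = ∑ k ∈ s, f k x := by
  classical
  induction s using Finset.induction_on with
  | empty => simp
  | insert a s ha ih => rw [Finset.sum_insert ha, Finset.sum_insert ha, Derivation.add_apply, ih]

section comm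
variable {S : Type} [CommRing S] [Algebra ℂ S]

/-- `exp(t D)` and the powers of `ad D`. -/
theorem cl_ad (q : S →ₐ[ℂ] ℂ) (D : Derivation ℂ S S) (k : ℕ) : ∀ (E : Derivation ℂ S S) (h : S),
    ((k.factorial : ℂ)⁻¹) * q ((((fun X : Derivation ℂ S S => ⁅D, X⁆)^[k]) E) h) =
      ∑ ij ∈ Finset.HasAntidiagonal.antidiagonal k,
        (((-1) ^ ij.2 * ((ij.2.factorial : ℂ)⁻¹)) * cl q D ij.1 (E ((⇑D)^[ij.2] h))) := by
  induction k with
  | zero =>
    intro E h
    simp [cl_zero]
  | succ k ih =>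
    intro E h
    rw [Function.iterate_succ_apply]
    have h1 := ih ⁅D, E⁆ h
    set T : ℕ → ℕ → ℂ := fun a b =>
      ((-1) ^ b * ((b.factorial : ℂ)⁻¹)) * cl q D a (E ((⇑D)^[b] h)) with hT
    have h2 : ∀ i j : ℕ, ((-1) ^ j * ((j.factorial : ℂ)⁻¹)) * cl q D i (⁅D, E⁆ ((⇑D)^[j] h)) =
        ((i : ℂ) + 1) * T (i + 1) j + ((j : ℂ) + 1) * T i (j + 1) := by
      intro i j
      rw [Derivation.commutator_apply, map_sub, cl_succ, hT]
      simp only [Function.iterate_succ_apply', Nat.factorial_succ, Nat.cast_mul, Nat.cast_succ,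
        pow_succ]
      have h3 : ((j : ℂ) + 1) ≠ 0 := Nat.cast_add_one_ne_zero j
      have h4 : (j.factorial : ℂ) ≠ 0 := by exact_mod_cast j.factorial_ne_zero
      field_simp
      ring
    have h3 : ((k.factorial : ℂ)⁻¹) * q ((((fun X : Derivation ℂ S S => ⁅D, X⁆)^[k]) ⁅D, E⁆) h) =
        ((k : ℂ) + 1) * ∑ ij ∈ Finset.HasAntidiagonal.antidiagonal (k + 1), T ij.1 ij.2 := by
      rw [h1, Finset.sum_congr rfl fun ij _ => h2 ij.1 ij.2, Finset.sum_add_distrib]
      have e1 : ∑ ij ∈ Finset.HasAntidiagonal.antidiagonal (k + 1), (ij.1 : ℂ) * T ij.1 ij.2 =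
          ∑ ij ∈ Finset.HasAntidiagonal.antidiagonal k, ((ij.1 : ℂ) + 1) * T (ij.1 + 1) ij.2 := by
        rw [Finset.Nat.sum_antidiagonal_succ (f := fun ij : ℕ × ℕ => (ij.1 : ℂ) * T ij.1 ij.2)]
        simp
      have e2 : ∑ ij ∈ Finset.HasAntidiagonal.antidiagonal (k + 1), (ij.2 : ℂ) * T ij.1 ij.2 =
          ∑ ij ∈ Finset.HasAntidiagonal.antidiagonal k, ((ij.2 : ℂ) + 1) * T ij.1 (ij.2 + 1) := by
        rw [Finset.Nat.sum_antidiagonal_succ' (f := fun ij : ℕ × ℕ => (ij.2 : ℂ) * T ij.1 ij.2)]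
        simp
      rw [← e1, ← e2, ← Finset.sum_add_distrib, Finset.mul_sum]
      refine Finset.sum_congr rfl fun ij hij => ?_
      have h4 := Finset.HasAntidiagonal.mem_antidiagonal.1 hij
      have h5 : ((ij.1 : ℂ) + ij.2) = (k : ℂ) + 1 := by exact_mod_cast h4
      rw [← add_mul, h5]
    have h4 : ((k : ℂ) + 1) ≠ 0 := Nat.cast_add_one_ne_zero k
    rw [Nat.factorial_succ, Nat.cast_mul, Nat.cast_succ, mul_inv, mul_assoc, h3, ← mul_assoc,
      inv_mul_cancel₀ h4, one_mul]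

end comm

omit [IsDomain R] [GradedAlgebra 𝒜] in
theorem ad_mem {w x : Fin r → ℤ} {D : Derivation ℂ R R} (hD : H93.IsHField 𝒜 w D) (k : ℕ) :
    ∀ {E : Derivation ℂ R R}, H93.IsHField 𝒜 (x + k • -w) E →
      H93.IsHField 𝒜 x ((((fun X : Derivation ℂ R R => ⁅D, X⁆)^[k]) E)) := by
  induction k with
  | zero =>
    intro E hE
    rwa [zero_smul, add_zero] at hE
  | succ k ih =>
    intro E hE
    rw [Function.iterate_succ_apply]
    apply ih
    have h1 := hD.lie hE
    have h2 : w + (x + (k + 1) • -w) = x + k • -w := by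
      rw [succ_nsmul]
      abel
    rwa [h2] at h1

/-- **(C0).** -/
theorem claim0 (H : H63X.Hyp 𝒜) (z : FP 𝒜) {w : Fin r → ℤ} (hw : w ≠ 0) {D : Derivation ℂ R R}
    (hD : H93.IsHField 𝒜 w D) {h0 : R} (hne : z.q (D h0) ≠ 0)
    (hlow : ∀ (y : FP 𝒜) (n : ℕ), 1 ≤ n → y.ν = z.ν + n • w → y.Pi (-w) → ∀ x, Lf 𝒜 y x) :
    ∀ x, Lf 𝒜 z x := by
  classical
  intro x t ht htw
  obtain ⟨y, n, φ, hφ, hcl⟩ := exists_curve_exp H z hw hD hne
  obtain ⟨φ', hφ', hrel⟩ := H63X.exists_rev H hφ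
  have hgen := hlow y n hφ.n1 hφ.nu hφ.ya'
  obtain ⟨K, E, hE, -, hs⟩ := f2 H hφ' (fun k _ => hgen (x + k • -w)) ht htw
  -- coefficients along the reversed curve
  have hco : ∀ (d : ℕ) (m : Fin r → ℤ), ∀ g ∈ 𝒜 (d, m), ∀ k j : ℕ,
      (Polynomial.X ^ k * φ' g).coeff (d * n + j) = if j ≤ k then cl z.q D (k - j) g else 0 := by
    intro d m g hg k j
    rw [← hcl d m g hg]
    obtain ⟨i, hi, -, c, hc⟩ := H490.form hφ hg
    rw [hrel d m g hg i hi c hc, hc, Polynomial.coeff_X_pow_mul', Polynomial.coeff_C_mul_X_pow,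
      Polynomial.coeff_C_mul_X_pow]
    split_ifs <;> first | rfl | omega
  have hk0 : ∀ (d : ℕ) (m : Fin r → ℤ), ∀ h ∈ 𝒜 (d, m),
      t h = ∑ k ∈ Finset.range K, cl z.q D k (E k h) := by
    intro d m h hh
    rw [(hs d m h hh).1, Polynomial.finsetSum_coeff]
    refine Finset.sum_congr rfl fun k _ => ?_
    have h1 := hco d _ _ (hE k d m h hh) k 0
    rw [add_zero, if_pos (Nat.zero_le k), Nat.sub_zero] at h1
    exact h1
  have hk1 : ∀ (d : ℕ) (m : Fin r → ℤ), ∀ h ∈ 𝒜 (d, m), ∀ j, 1 ≤ j →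
      ∑ k ∈ Finset.range K, (if j ≤ k then cl z.q D (k - j) (E k h) else 0) = 0 := by
    intro d m h hh j hj
    have h1 := (hs d m h hh).2 (d * n + j) (by omega)
    rw [Polynomial.finsetSum_coeff] at h1
    refine (Finset.sum_congr rfl fun k _ => ?_).trans h1
    exact (hco d _ _ (hE k d m h hh) k j).symm
  -- the field
  refine ⟨∑ k ∈ Finset.range K, ((k.factorial : ℂ)⁻¹) •
    (((fun X : Derivation ℂ R R => ⁅D, X⁆)^[k]) (E k)), ?_, ?_⟩
  · intro d m h hh
    rw [dsum_apply]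
    refine Submodule.sum_mem _ fun k _ => ?_
    rw [Derivation.smul_apply]
    exact Submodule.smul_mem _ _ (ad_mem hD k (hE k) d m h hh)
  · have key : z.q.toLinearMap.comp ((∑ k ∈ Finset.range K, ((k.factorial : ℂ)⁻¹) •
        (((fun X : Derivation ℂ R R => ⁅D, X⁆)^[k]) (E k)) : Derivation ℂ R R) : R →ₗ[ℂ] R) = t := by
      apply linearMap_ext_graded 𝒜
      rintro ⟨d, m⟩ h hh
      change z.q ((∑ k ∈ Finset.range K, ((k.factorial : ℂ)⁻¹) •
        (((fun X : Derivation ℂ R R => ⁅D, X⁆)^[k]) (E k)) : Derivation ℂ R R) h) = t h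
      rw [dsum_apply, map_sum]
      have h1 : ∀ k ∈ Finset.range K, z.q ((((k.factorial : ℂ)⁻¹) •
          (((fun X : Derivation ℂ R R => ⁅D, X⁆)^[k]) (E k))) h) =
          ∑ j ∈ Finset.range K, (((-1) ^ j * ((j.factorial : ℂ)⁻¹)) *
            (if j ≤ k then cl z.q D (k - j) (E k ((⇑D)^[j] h)) else 0)) := by
        intro k hk
        rw [Derivation.smul_apply, map_smul, smul_eq_mul, cl_ad,
          Finset.Nat.sum_antidiagonal_eq_sum_range_succ_mk, ← Finset.sum_range_reflect]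
        have hk' := Finset.mem_range.1 hk
        have h2 : ∑ j ∈ Finset.range K, (((-1) ^ j * ((j.factorial : ℂ)⁻¹)) *
            (if j ≤ k then cl z.q D (k - j) (E k ((⇑D)^[j] h)) else 0)) =
            ∑ j ∈ Finset.range (k + 1), (((-1) ^ j * ((j.factorial : ℂ)⁻¹)) *
            (if j ≤ k then cl z.q D (k - j) (E k ((⇑D)^[j] h)) else 0)) := by
          symm
          apply Finset.sum_subset
          · intro j hj
            rw [Finset.mem_range] at hj ⊢
            omega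
          · intro j _ hj
            rw [Finset.mem_range] at hj
            rw [if_neg (by omega), mul_zero]
        rw [h2]
        refine Finset.sum_congr rfl fun j hj => ?_
        have hj' := Finset.mem_range.1 hj
        rw [if_pos (by omega)]
        have h3 : k + 1 - 1 - j = k - j := by omega
        have h4 : k - (k - j) = j := by omega
        simp only [h3, h4]
      rw [Finset.sum_congr rfl h1, Finset.sum_comm]
      rcases Nat.eq_zero_or_pos K with hK | hK
      · subst hK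
        rw [hk0 d m h hh]
        simp
      rw [Finset.sum_eq_single_of_mem 0 (Finset.mem_range.2 hK)]
      · rw [hk0 d m h hh]
        refine Finset.sum_congr rfl fun k _ => ?_
        simp
      · intro j _ hj
        rw [← Finset.mul_sum, hk1 d _ _ (iter_mem hD hh j) j (by omega), mul_zero]
    exact fun x => LinearMap.congr_fun key x

end Vale.Agent.P280.H143
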