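import Vale.Agent.P280.H143.F2
import Vale.Agent.P280.H63X.Chain
import Vale.Agent.P280.H63X.P1
import Vale.Agent.P280.H63X.NL

/-! P280, T7, helper143: crossing the walls between two chambers. -/

open DirectSum Vale.Agent.P280.T Vale.Agent.P280.H127

namespace Vale.Agent.P280.H143

open Vale.Agent.P280.N Vale.Agent.P280.H490

variable {r : ℕ} {R : Type} [CommRing R] [IsDomain R] [Algebra ℂ R]
  {𝒜 : ℕ × (Fin r → ℤ) → Submodule ℂ R} [GradedAlgebra 𝒜]

/-- Lifts pass from the lower end `y` of a curve to the upper end `y'`, if each weight `χ + k a`,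
`k ≥ 1`, at `y` has multiplicity one and is realised by a field which is not zero at `y'`. -/
theorem lf_step (H : H63X.Hyp 𝒜) {y y' : FP 𝒜} {a : Fin r → ℤ} {n : ℕ}
    {φ : R →ₐ[ℂ] Polynomial ℂ} (hφ : Curve y y' a n φ) {χ : Fin r → ℤ}
    (hχ : ∀ k : ℕ, χ + k • a ≠ 0) (hreal : Lf 𝒜 y χ)
    (h : ∀ k : ℕ, 1 ≤ k → y.Pi (χ + k • a) → ∃ E : Derivation ℂ R R,
      H93.IsHField 𝒜 (χ + k • a) E ∧ (∃ x, y'.q (E x) ≠ 0) ∧
      ∀ t : R →ₗ[ℂ] ℂ, IsTangent y.q t → HasWeight 𝒜 y.ν (χ + k • a) t →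
        ∃ b : ℂ, ∀ x, t x = b * y.q (E x)) : Lf 𝒜 y' χ := by
  classical
  intro t ht htw
  have hex : ∀ k : ℕ, ∃ E : Derivation ℂ R R, H93.IsHField 𝒜 (χ + k • a) E ∧
      (1 ≤ k → y.Pi (χ + k • a) → (∃ x, y'.q (E x) ≠ 0) ∧
      ∀ t : R →ₗ[ℂ] ℂ, IsTangent y.q t → HasWeight 𝒜 y.ν (χ + k • a) t →
        ∃ b : ℂ, ∀ x, t x = b * y.q (E x)) := by
    intro k
    by_cases hk : 1 ≤ k ∧ y.Pi (χ + k • a)
    · obtain ⟨E, h1, h2, h3⟩ := h k hk.1 hk.2
      exact ⟨E, h1, fun _ _ => ⟨h2, h3⟩⟩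
    · exact ⟨0, fun d m x _ => Submodule.zero_mem _, fun h1 h2 => absurd ⟨h1, h2⟩ hk⟩
  choose E hE hE2 using hex
  obtain ⟨D, hD, c, hc1, hc2, hh⟩ := transport H hφ hχ hreal hE
    (fun k hk hpi => (hE2 k hk hpi).2) (fun k hk hpi => (hE2 k (by omega) hpi).1) ht htw
  refine ⟨D, hD, ?_⟩
  have hc0 : c = 0 := by
    by_cases hpi : y.Pi (χ + a)
    · refine hc1 (hE2 1 le_rfl (by rwa [one_smul])).1
    · exact hc2 hpi
  have key : y'.q.toLinearMap.comp (D : R →ₗ[ℂ] R) = t := by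
    apply linearMap_ext_graded 𝒜
    rintro ⟨d, m⟩ x hx
    change y'.q (D x) = t x
    rw [hh d m x hx, hc0, zero_mul, add_zero]
  exact fun x => LinearMap.congr_fun key x

/-- Lifts pass from the lower end to the upper end if there is no defect. -/
theorem lf_step' (H : H63X.Hyp 𝒜) {y y' : FP 𝒜} {a : Fin r → ℤ} {n : ℕ}
    {φ : R →ₐ[ℂ] Polynomial ℂ} (hφ : Curve y y' a n φ) {χ : Fin r → ℤ}
    (hχ : ∀ k : ℕ, χ + k • a ≠ 0) (h : ∀ k : ℕ, 1 ≤ k → ¬ y.Pi (χ + k • a))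
    (hreal : Lf 𝒜 y χ) : Lf 𝒜 y' χ :=
  lf_step H hφ hχ hreal fun k hk hpi => absurd hpi (h k hk)

/-- The values of a functional on the characters of the fixed points are bounded. -/
theorem nu_bd (H : H63X.Hyp 𝒜) (g : (Fin r → ℤ) →+ ℤ) : ∃ K : ℤ, ∀ y : FP 𝒜, -K ≤ g y.ν := by
  have hfin : (H587.wts 𝒜).Finite := finite_weights H.hX
  obtain ⟨K, hK⟩ := (hfin.image fun m => |g m|).bddAbove
  exact ⟨K, fun y => (abs_le.1 (hK ⟨y.ν, H63X.nu_mem H y, rfl⟩)).1⟩

/-- There is a curve in the direction of each tangent weight. -/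
theorem exists_curve_pi (H : H63X.Hyp 𝒜) (y : FP 𝒜) {a : Fin r → ℤ} (ha : y.Pi a) :
    ∃ (y' : FP 𝒜) (n : ℕ) (φ : R →ₐ[ℂ] Polynomial ℂ), Curve y y' a n φ := by
  have ha0 := H63X.ne_zero_of_pi H ha
  obtain ⟨τ, h1, h2, h3⟩ := ha
  obtain ⟨y', n, φ, hφ, -⟩ := exists_curve_dir H y ha0 h1 h2 (by
    rintro rfl
    obtain ⟨d, m, h, -, hne⟩ := h3 0
    exact hne (by simp))
  exact ⟨y', n, φ, hφ⟩

/-- **Crossing, induction principle.** A property of the fixed points holds at the source of `c` if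
it holds at the source of the lexicographic chamber `(φ, c)` and passes from the lower to the upper
end of the curves of direction `w` with `φ w < 0 < c w`. -/
theorem cross_gen (H : H63X.Hyp 𝒜) {c φ : (Fin r → ℤ) →+ ℤ} (hc : ∀ ω, Wt 𝒜 ω → c ω ≠ 0)
    {Q : FP 𝒜 → Prop}
    (hbase : ∀ p : FP 𝒜, (∀ ψ, p.Pi ψ → 0 < φ ψ ∨ (φ ψ = 0 ∧ 0 < c ψ)) → Q p)
    (hstep : ∀ (y y' : FP 𝒜) (w : Fin r → ℤ) (n : ℕ) (f : R →ₐ[ℂ] Polynomial ℂ),
      Curve y y' (-w) n f → 0 < c w → φ w < 0 →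
      (∃ a b : ℤ, 0 < a ∧ 0 < b ∧ Pos (a • c + b • φ) y' ∧ Pos (a • c + b • φ) y) → Q y → Q y') :
    ∀ p : FP 𝒜, Pos c p → Q p := by
  obtain ⟨K, hK⟩ := nu_bd H φ
  have key : ∀ (m : ℕ) (y : FP 𝒜), (φ y.ν + K).toNat ≤ m →
      (∃ a b : ℤ, 0 < a ∧ 0 ≤ b ∧ Pos (a • c + b • φ) y) → Q y := by
    intro m
    induction m with
    | zero =>
      rintro y hm ⟨a, b, ha, hb, hpos⟩
      by_cases hall : ∀ ψ, y.Pi ψ → 0 < φ ψ ∨ (φ ψ = 0 ∧ 0 < c ψ)
      · exact hbase y hall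
      · exfalso
        push Not at hall
        obtain ⟨ψ, hψ, h1, h2⟩ := hall
        have h3 := hpos ψ hψ
        rw [AddMonoidHom.add_apply, AddMonoidHom.smul_apply, AddMonoidHom.smul_apply, smul_eq_mul,
          smul_eq_mul] at h3
        have h4 := hc ψ ⟨y, hψ⟩
        have h5 : φ ψ < 0 := by
          rcases h1.lt_or_eq with h5 | h5
          · exact h5
          · have h6 := h2 h5
            rw [h5, mul_zero, add_zero] at h3
            have : c ψ < 0 := lt_of_le_of_ne h6 h4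
            nlinarith
        obtain ⟨y1, n, f, hf⟩ := exists_curve_pi H y hψ
        have h6 := hK y1
        have h7 := hK y
        rw [hf.nu, map_add, map_nsmul, nsmul_eq_mul] at h6
        have h8 : (1 : ℤ) ≤ n := by exact_mod_cast hf.n1
        have h9 : φ y.ν + K = 0 := by omega
        nlinarith
    | succ m ih =>
      rintro y hm ⟨a, b, ha, hb, hpos⟩
      by_cases hall : ∀ ψ, y.Pi ψ → 0 < φ ψ ∨ (φ ψ = 0 ∧ 0 < c ψ)
      · exact hbase y hall
      push Not at hall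
      have hv : ∀ ψ, (a • c + b • φ) ψ = a * c ψ + b * φ ψ := fun ψ => by
        rw [AddMonoidHom.add_apply, AddMonoidHom.smul_apply, AddMonoidHom.smul_apply, smul_eq_mul,
          smul_eq_mul]
      -- the weights with `φ < 0`
      have hneg : ∀ ψ, y.Pi ψ → φ ψ < 0 → 0 < c ψ := by
        intro ψ hψ h1
        have h3 := hpos ψ hψ
        rw [hv] at h3
        rcases lt_trichotomy (c ψ) 0 with h4 | h4 | h4
        · nlinarith
        · exact absurd h4 (hc ψ ⟨y, hψ⟩)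
        · exact h4
      obtain ⟨ψ0, hψ0, hφ0⟩ : ∃ ψ, y.Pi ψ ∧ φ ψ < 0 := by
        obtain ⟨ψ, hψ, h1, h2⟩ := hall
        refine ⟨ψ, hψ, ?_⟩
        rcases h1.lt_or_eq with h5 | h5
        · exact h5
        · exfalso
          have h6 := h2 h5
          have h3 := hpos ψ hψ
          rw [hv, h5, mul_zero, add_zero] at h3
          have : c ψ < 0 := lt_of_le_of_ne h6 (hc ψ ⟨y, hψ⟩)
          nlinarith
      have hfin : {ψ | y.Pi ψ ∧ φ ψ < 0}.Finite :=
        (H63X.pi_finite H y).subset fun ψ hψ => hψ.1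
      obtain ⟨w, ⟨hw, hwφ⟩, hmin⟩ := Set.exists_min_image {ψ | y.Pi ψ ∧ φ ψ < 0}
        (fun ψ => (c ψ : ℚ) / (-(φ ψ : ℚ))) hfin ⟨ψ0, hψ0, hφ0⟩
      have hcw := hneg w hw hwφ
      have hmin' : ∀ ψ, y.Pi ψ → φ ψ < 0 → -φ ψ * c w ≤ c ψ * -φ w := by
        intro ψ hψ h1
        have h2 := hmin ψ ⟨hψ, h1⟩
        have e1 : (0 : ℚ) < -(φ w : ℚ) := by
          have : (φ w : ℚ) < 0 := by exact_mod_cast hwφ
          linarith
        have e2 : (0 : ℚ) < -(φ ψ : ℚ) := by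
          have : (φ ψ : ℚ) < 0 := by exact_mod_cast h1
          linarith
        rw [div_le_div_iff₀ e1 e2] at h2
        have h3 : ((-φ ψ * c w : ℤ) : ℚ) ≤ ((c ψ * -φ w : ℤ) : ℚ) := by
          push_cast
          linarith
        exact_mod_cast h3
      have hv' : ∀ ψ, ((-φ w) • c + (c w) • φ) ψ = -φ w * c ψ + c w * φ ψ := fun ψ => by
        rw [AddMonoidHom.add_apply, AddMonoidHom.smul_apply, AddMonoidHom.smul_apply, smul_eq_mul,
          smul_eq_mul]
      have hpos' : Pos ((-φ w) • c + (c w) • φ) y := by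
        intro ψ hψ
        rw [hv']
        by_cases h1 : φ ψ < 0
        · have := hmin' ψ hψ h1
          linarith
        · push Not at h1
          by_cases h2 : 0 ≤ c ψ
          · nlinarith
          · push Not at h2
            have h3 := hpos ψ hψ
            have h4 := hpos w hw
            rw [hv] at h3 h4
            -- `b / a ≤ c w / (- φ w)`
            have h5 : a * (-φ w * c ψ + c w * φ ψ) = -φ w * (a * c ψ + b * φ ψ) +
                φ ψ * (a * c w + b * φ w) := by ring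
            have h6 : 0 ≤ a * (-φ w * c ψ + c w * φ ψ) := by
              rw [h5]
              have e1 : 0 ≤ -φ w * (a * c ψ + b * φ ψ) := mul_nonneg (by linarith) h3
              have e2 : 0 ≤ φ ψ * (a * c w + b * φ w) := mul_nonneg h1 h4
              linarith
            exact nonneg_of_mul_nonneg_right h6 ha
      -- the curve
      obtain ⟨y1, n, f, hf⟩ := exists_curve_pi H y hw
      obtain ⟨f', hf', -⟩ := H63X.exists_rev H hf
      have hpos1 : Pos ((-φ w) • c + (c w) • φ) y1 := by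
        refine (H63X.low_iff H _ y1).1 fun d m h hh hne => ?_
        have h1 := (H63X.low_iff H _ y).2 hpos' d m h hh hne
        have h2 : ((-φ w) • c + (c w) • φ) y1.ν = ((-φ w) • c + (c w) • φ) y.ν := by
          rw [hf.nu, map_add, map_nsmul, hv' w]
          rw [show -φ w * c w + c w * φ w = 0 by ring, smul_zero, add_zero]
        rwa [h2]
      refine hstep y1 y w n f' hf' hcw hwφ ⟨-φ w, c w, by linarith, hcw, hpos', hpos1⟩
        (ih y1 ?_ ⟨-φ w, c w, by linarith, hcw.le, hpos1⟩)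
      have h6 : φ y1.ν < φ y.ν := by
        rw [hf.nu, map_add, map_nsmul, nsmul_eq_mul]
        have h8 : (1 : ℤ) ≤ n := by exact_mod_cast hf.n1
        nlinarith
      have h7 := hK y
      have h8 := hK y1
      omega
  intro p hp
  refine key _ p le_rfl ⟨1, 0, one_pos, le_rfl, ?_⟩
  rwa [one_smul, zero_smul, add_zero]

/-- **The crossing lemma.** Lifts at the source of the chamber `(φ, c)` pass to the source of `c`,
if `χ - k w` is never a weight for the weights `w` with `φ w < 0 < c w`. -/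
theorem cross (H : H63X.Hyp 𝒜) {χ : Fin r → ℤ} {c φ : (Fin r → ℤ) →+ ℤ}
    (hc : ∀ ω, Wt 𝒜 ω → c ω ≠ 0)
    (hno : ∀ w, Wt 𝒜 w → 0 < c w → φ w < 0 → ∀ k : ℕ, 1 ≤ k →
      χ - k • w ≠ 0 ∧ ¬ Wt 𝒜 (χ - k • w))
    (hbase : ∀ p : FP 𝒜, (∀ ψ, p.Pi ψ → 0 < φ ψ ∨ (φ ψ = 0 ∧ 0 < c ψ)) → Lf 𝒜 p χ) :
    ∀ p : FP 𝒜, Pos c p → Lf 𝒜 p χ := by
  by_cases hχ : χ = 0
  · subst hχ
    exact fun p _ => lf_of_not_pi p (H.iso p.q p.ν p.nv p.fix)
  refine cross_gen H hc hbase fun y y' w n f hf hcw hφw _ hy => ?_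
  have hw : Wt 𝒜 w := ⟨y', by have := hf.ya'; rwa [neg_neg] at this⟩
  have hk : ∀ k : ℕ, χ + k • -w = χ - k • w := fun k => by rw [smul_neg, sub_eq_add_neg]
  refine lf_step' H hf (fun k => ?_) (fun k hk1 hpi => ?_) hy
  · rcases Nat.eq_zero_or_pos k with h | h
    · subst h
      rwa [zero_smul, add_zero]
    · rw [hk]
      exact (hno w hw hcw hφw k h).1
  · rw [hk] at hpi
    exact (hno w hw hcw hφw k hk1).2 ⟨y, hpi⟩

end Vale.Agent.P280.H143
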