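import Vale.Agent.P280.H63X.Curve
import Vale.Agent.P280.H63X.Fin

/-! P280, T7, helper143: the `T`-curve tangent to a given vector. -/

open DirectSum Vale.Agent.P280.T Vale.Agent.P280.H127

namespace Vale.Agent.P280.H143

open Vale.Agent.P280.N Vale.Agent.P280.H746 Vale.Agent.P280.H63X

variable {r : ℕ} {R : Type} [CommRing R] [IsDomain R] [Algebra ℂ R]
  {𝒜 : ℕ × (Fin r → ℤ) → Submodule ℂ R} [GradedAlgebra 𝒜]

omit [IsDomain R] in
/-- A tangent vector of weight `a` vanishes on the elements of another weight. -/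
theorem tan_coarse {y : FP 𝒜} {a : Fin r → ℤ} {τ : R →ₗ[ℂ] ℂ} (hw : HasWeight 𝒜 y.ν a τ)
    {w : Fin r → ℤ} (hwa : w ≠ a) {x : R}
    (hx : x ∈ coarse 𝒜 (rl (AddMonoidHom.id (Fin r → ℤ)) y.ν) w) : τ x = 0 := by
  refine coarse_induction (P := fun x => τ x = 0) (map_zero τ)
    (fun a b ha hb => by rw [map_add, ha, hb, add_zero]) ?_ hx
  rintro ⟨d, m⟩ hi h hh
  by_contra hne
  apply hwa
  have h1 := hw d m h hh hne
  rw [rl_apply, AddMonoidHom.id_apply] at hi
  rw [← hi, h1]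
  abel

/-- **A point of the curve** tangent to `τ`. -/
theorem exists_pt_dir (hX : IsTorusManifold 𝒜) (y : FP 𝒜) {a : Fin r → ℤ} (ha0 : a ≠ 0)
    {τ : R →ₗ[ℂ] ℂ} (ht : IsTangent y.q τ) (htw : HasWeight 𝒜 y.ν a τ) (hτ : τ ≠ 0) :
    ∃ p : R →ₐ[ℂ] ℂ,
      (∀ w, (∀ i : ℕ, w ≠ i • a) → ∀ x ∈ coarse 𝒜 (rl (AddMonoidHom.id (Fin r → ℤ)) y.ν) w,
        p x = 0) ∧
      (∀ x ∈ coarse 𝒜 (rl (AddMonoidHom.id (Fin r → ℤ)) y.ν) 0, p x = y.q x) ∧
      ∃ κ : ℂ, κ ≠ 0 ∧ ∀ x ∈ coarse 𝒜 (rl (AddMonoidHom.id (Fin r → ℤ)) y.ν) a,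
        p x = κ * τ x := by
  classical
  have := noeth hX
  have hft := hX.finiteType
  have hF := fix_of_isFixed y.fix
  obtain ⟨n, u, wt, G, hn⟩ := exists_params_T hX y.nv hF
  set ℬ := coarse 𝒜 (rl (AddMonoidHom.id (Fin r → ℤ)) y.ν) with hℬ
  obtain ⟨s, hs0, hs1, hs⟩ := G.gen
  -- `τ` through the parameters
  have hτs : ∀ x ∈ mx y.q, ∀ c : Fin n → R, s * x = ∑ i, c i * u i →
      τ x = ∑ i, y.q (c i) * τ (u i) := by
    intro x hx c hc
    have h1 := ht s x
    rw [hs1, one_mul, mem_mx.mp hx, zero_mul, add_zero] at h1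
    rw [← h1, hc, map_sum]
    refine Finset.sum_congr rfl fun i _ => ?_
    rw [ht, G.zero, zero_mul, add_zero]
  obtain ⟨i1, hi1τ⟩ : ∃ i, τ (u i) ≠ 0 := by
    by_contra hcon
    push Not at hcon
    apply hτ
    refine linearMap_ext_graded 𝒜 ?_
    rintro ⟨d, m⟩ h hh
    rw [LinearMap.zero_apply]
    by_contra hne
    have hm := htw d m h hh hne
    have hx : h ∈ mx y.q := by
      refine mem_mx.mpr ?_
      by_contra h0
      have := y.fix d m h hh h0
      rw [this] at hm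
      exact ha0 (left_eq_add.mp hm)
    obtain ⟨c, hc⟩ := Ideal.mem_span_range_iff_exists_fun.1 (hs h hx)
    apply hne
    rw [hτs h hx c hc.symm]
    exact Finset.sum_eq_zero fun i _ => by rw [hcon i, mul_zero]
  have hi1 : wt i1 = a := by
    by_contra hne
    exact hi1τ (tan_coarse htw hne (G.hom i1))
  -- the new parameters
  set v : Fin n → R := fun i => if i = i1 then u i1 else
    u i - algebraMap ℂ R (τ (u i) / τ (u i1)) * u i1 with hv
  have hv1 : v i1 = u i1 := if_pos rfl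
  have hvi : ∀ i, i ≠ i1 → v i = u i - algebraMap ℂ R (τ (u i) / τ (u i1)) * u i1 :=
    fun i hi => if_neg hi
  have hvJ : ∀ i, wt i ≠ a → v i = u i := by
    intro i hi
    have h1 : i ≠ i1 := by
      rintro rfl
      exact hi hi1
    rw [hvi i h1, tan_coarse htw hi (G.hom i), zero_div, map_zero, zero_mul, sub_zero]
  set S : Set R := ({x | ∃ w, (∀ i : ℕ, w ≠ i • a) ∧ x ∈ ℬ w} ∪ {x | x ∈ ℬ 0 ∧ y.q x = 0}) ∪
    (v '' {i | i ≠ i1}) with hS
  set J : Set (Fin n) := {i | wt i ≠ a} with hJ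
  set C : Set (Fin r → ℤ) := {w | w = 0 ∨ ∀ i : ℕ, w ≠ i • a} with hC
  have hCC : ∀ w ∈ C, ∀ i ∉ J, w - wt i ∈ C ∧ w - wt i ≠ 0 := by
    intro w hw i hi
    have hi' : wt i = a := by
      by_contra h
      exact hi h
    rw [hi']
    rcases hw with rfl | hw
    · refine ⟨Or.inr fun k hk => ?_, ?_⟩
      · have h1 : ((-1 : ℤ)) • a = (k : ℤ) • a := by
          rw [natCast_zsmul, ← hk]; simp
        have h2 := smul_inj ha0 h1
        omega
      · rw [zero_sub]
        exact neg_ne_zero.mpr ha0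
    · refine ⟨Or.inr fun k hk => hw (k + 1) ?_, fun h => hw 1 ?_⟩
      · rw [succ_nsmul, ← hk, sub_add_cancel]
      · rw [one_smul, ← sub_eq_zero]; exact h
  have hJv : Ideal.span (u '' J) ≤ Ideal.span (v '' {i | i ≠ i1}) := by
    rw [Ideal.span_le]
    rintro _ ⟨i, hi, rfl⟩
    rw [← hvJ i hi]
    exact Ideal.subset_span ⟨i, by rintro rfl; exact hi hi1, rfl⟩
  have hsub : ∀ x ∈ Ideal.span S, ∃ t, y.q t = 1 ∧ t * x ∈ Ideal.span (v '' {i | i ≠ i1}) := by
    intro x hx
    refine Submodule.span_induction (p := fun x _ => ∃ t, y.q t = 1 ∧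
      t * x ∈ Ideal.span (v '' {i | i ≠ i1})) ?_ ?_ ?_ ?_ hx
    · rintro x ((⟨w, hw, hxw⟩ | ⟨hx0, hx1⟩) | hx)
      · have hw0 : w ≠ 0 := by
          intro h
          exact hw 0 (by rw [h, zero_smul])
        obtain ⟨t, h1, h2⟩ := lemmaA hF G (C := C) hCC (Or.inr hw) hxw
          (mem_mx.mpr (hF w hw0 x hxw))
        exact ⟨t, h1, hJv h2⟩
      · obtain ⟨t, h1, h2⟩ := lemmaA hF G (C := C) hCC (Or.inl rfl) hx0 (mem_mx.mpr hx1)
        exact ⟨t, h1, hJv h2⟩
      · exact ⟨1, map_one _, by rw [one_mul]; exact Ideal.subset_span hx⟩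
    · exact ⟨1, map_one _, by rw [mul_zero]; exact Ideal.zero_mem _⟩
    · rintro x x' - - ⟨t, ht, h⟩ ⟨t', ht', h'⟩
      refine ⟨t * t', by rw [map_mul, ht, ht', mul_one], ?_⟩
      rw [mul_add]
      refine Ideal.add_mem _ ?_ ?_
      · rw [mul_comm t t', mul_assoc]; exact Ideal.mul_mem_left _ _ h
      · rw [mul_assoc]; exact Ideal.mul_mem_left _ _ h'
    · rintro b x - ⟨t, ht, h⟩
      refine ⟨t, ht, ?_⟩
      rw [smul_eq_mul, mul_left_comm]
      exact Ideal.mul_mem_left _ _ h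
  have hvu : ∀ P : Ideal R, (∀ i, v i ∈ P) → ∀ i, u i ∈ P := by
    intro P hP i
    by_cases hi : i = i1
    · rw [hi, ← hv1]
      exact hP i1
    · have h1 : u i = v i + algebraMap ℂ R (τ (u i) / τ (u i1)) * u i1 := by
        rw [hvi i hi, sub_add_cancel]
      rw [h1]
      refine P.add_mem (hP i) (P.mul_mem_left _ ?_)
      rw [← hv1]
      exact hP i1
  -- `u i1` is not in the radical
  have hz : u i1 ∉ (Ideal.span S).radical := by
    rintro ⟨k, hk⟩
    obtain ⟨t, ht1, h⟩ := hsub _ hk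
    set T : Finset R := (Finset.univ.erase i1).image v with hT
    have hTn : T.card < n := by
      refine Finset.card_image_le.trans_lt ?_
      rw [Finset.card_erase_of_mem (Finset.mem_univ i1), Finset.card_univ, Fintype.card_fin]
      have := i1.pos
      omega
    have huT : ∀ i, i ≠ i1 → v i ∈ Ideal.span (T : Set R) := fun i hi =>
      Ideal.subset_span (by
        rw [hT, Finset.coe_image]
        exact ⟨i, by simpa using hi, rfl⟩)
    have hJT : Ideal.span (v '' {i | i ≠ i1}) ≤ Ideal.span (T : Set R) := by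
      rw [Ideal.span_le]
      rintro _ ⟨i, hi, rfl⟩
      exact huT i hi
    have hqv : ∀ i, y.q (v i) = 0 := by
      intro i
      by_cases hi : i = i1
      · rw [hi, hv1, G.zero]
      · rw [hvi i hi, map_sub, map_mul, G.zero, G.zero, mul_zero, sub_zero]
    have hmin : mx y.q ∈ (Ideal.span (T : Set R)).minimalPrimes := by
      refine ⟨⟨inferInstance, ?_⟩, ?_⟩
      · rw [Ideal.span_le, hT, Finset.coe_image]
        rintro _ ⟨i, -, rfl⟩
        exact mem_mx.mpr (hqv i)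
      · rintro P ⟨hP, hTP⟩ hPq x hx
        have hnot : ∀ t : R, y.q t = 1 → t ∉ P := by
          intro t ht h2
          have h3 := mem_mx.mp (hPq h2)
          rw [ht] at h3
          exact one_ne_zero h3
        have hz1 : u i1 ∈ P := by
          rcases hP.mem_or_mem (hTP (hJT h)) with h2 | h2
          · exact absurd h2 (hnot t ht1)
          · exact hP.mem_of_pow_mem _ h2
        have hu : Ideal.span (Set.range u) ≤ P := by
          rw [Ideal.span_le]
          rintro _ ⟨i, rfl⟩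
          refine hvu P (fun i => ?_) i
          by_cases hi : i = i1
          · rw [hi, hv1]; exact hz1
          · exact hTP (huT i hi)
        rcases hP.mem_or_mem (hu (hs x hx)) with h2 | h2
        · exact absurd h2 (hnot s hs1)
        · exact h2
    have h1 := Ideal.height_le_card_of_mem_minimalPrimes_span_finset hmin
    have h2 : (n : ℕ∞) ≤ T.card := hn.le.trans h1
    exact absurd (by exact_mod_cast h2 : n ≤ T.card) (not_le.mpr hTn)
  obtain ⟨p, hp, hpz⟩ := exists_point hz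
  have hp0 : ∀ w, (∀ i : ℕ, w ≠ i • a) → ∀ x ∈ ℬ w, p x = 0 := fun w hw x hx =>
    hp x (Ideal.subset_span (Or.inl (Or.inl ⟨w, hw, hx⟩)))
  have hpq : ∀ x ∈ ℬ 0, p x = y.q x := by
    intro x hx
    have h1 : x - algebraMap ℂ R (y.q x) ∈ ℬ 0 :=
      Submodule.sub_mem _ hx (SetLike.algebraMap_mem_graded ℬ (y.q x))
    have h2 := hp _ (Ideal.subset_span (Or.inl (Or.inr ⟨h1, by
      rw [map_sub, AlgHom.commutes]; simp⟩)))
    rw [map_sub, AlgHom.commutes] at h2
    simpa [sub_eq_zero] using h2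
  have hpu : ∀ i, wt i = a → p (u i) = τ (u i) * (p (u i1) / τ (u i1)) := by
    intro i hi
    by_cases hii : i = i1
    · rw [hii]
      field_simp
    · have h1 := hp (v i) (Ideal.subset_span (Or.inr ⟨i, hii, rfl⟩))
      rw [hvi i hii, map_sub, map_mul, AlgHom.commutes, sub_eq_zero] at h1
      rw [h1]
      simp only [Algebra.algebraMap_self, RingHom.id_apply]
      ring
  refine ⟨p, hp0, hpq, p (u i1) / τ (u i1), div_ne_zero hpz hi1τ, fun x hx => ?_⟩
  have hxm : x ∈ mx y.q := mem_mx.mpr (hF a ha0 x hx)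
  have hsx : s * x ∈ ℬ a := by
    have := SetLike.mul_mem_graded hs0 hx
    rwa [zero_add] at this
  obtain ⟨c, hc, hce⟩ := mem_span_hom G.hom (hs x hxm) hsx
  have h1 : p x = ∑ i, p (c i) * p (u i) := by
    have h2 : p (s * x) = p x := by rw [map_mul, hpq s hs0, hs1, one_mul]
    rw [← h2, hce, map_sum]
    exact Finset.sum_congr rfl fun i _ => map_mul _ _ _
  rw [h1, hτs x hxm c hce, Finset.mul_sum]
  refine Finset.sum_congr rfl fun i _ => ?_
  by_cases hi : wt i = a
  · have h2 : c i ∈ ℬ 0 := by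
      have := hc i
      rwa [hi, sub_self] at this
    rw [hpu i hi, hpq _ h2]
    ring
  · rw [tan_coarse htw hi (G.hom i), mul_zero, mul_zero]
    by_cases hpos : ∃ j : ℕ, wt i = j • a
    · obtain ⟨j, hj⟩ := hpos
      rcases Nat.lt_or_ge j 2 with h2 | h2
      · rcases Nat.eq_zero_or_pos j with h3 | h3
        · have h4 : wt i = 0 := by rw [hj, h3, zero_smul]
          have h5 := G.hom i
          rw [h4] at h5
          rw [hpq _ h5, G.zero, mul_zero]
        · exfalso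
          apply hi
          have : j = 1 := by omega
          rw [hj, this, one_smul]
      · rw [hp0 _ (fun k hk => ?_) _ (hc i), zero_mul]
        rw [hj] at hk
        have h3 : a = (k + j) • a := by
          rw [add_smul, ← hk, sub_add_cancel]
        have h4 : (1 : ℕ) • a = (k + j) • a := by rw [one_smul]; exact h3
        have := nsmul_inj' ha0 h4
        omega
    · push Not at hpos
      rw [hp0 _ hpos _ (G.hom i), mul_zero]

/-- The curve through a given point `p`. -/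
theorem exists_curve_of_pt (hX : IsTorusManifold 𝒜) (y : FP 𝒜) {a : Fin r → ℤ} (ha0 : a ≠ 0)
    (ha : y.Pi a) {p : R →ₐ[ℂ] ℂ}
    (hp0 : ∀ w, (∀ i : ℕ, w ≠ i • a) →
      ∀ x ∈ coarse 𝒜 (rl (AddMonoidHom.id (Fin r → ℤ)) y.ν) w, p x = 0)
    (hp1 : ∀ x ∈ coarse 𝒜 (rl (AddMonoidHom.id (Fin r → ℤ)) y.ν) 0, p x = y.q x)
    (hp2 : ∃ z ∈ coarse 𝒜 (rl (AddMonoidHom.id (Fin r → ℤ)) y.ν) a, p z ≠ 0)
    (hU : ∀ (y' : FP 𝒜) (j : ℕ), 1 ≤ j → y'.Pi (-(j • a)) → j = 1 ∨ j = 2) :
    ∃ (y' : FP 𝒜) (n : ℕ) (φ : R →ₐ[ℂ] Polynomial ℂ), Curve y y' a n φ ∧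
      ∀ d (i : ℕ), ∀ h ∈ 𝒜 (d, d • y.ν + i • a), φ h = Polynomial.monomial i (p h) := by
  classical
  obtain ⟨z, hz, hpz⟩ := hp2
  -- the point in terms of homogeneous elements
  have hpi : ∀ d m, ∀ h ∈ 𝒜 (d, m), p h ≠ 0 → ∃ i : ℕ, m = d • y.ν + i • a := by
    intro d m h hh hne
    by_contra hcon
    push Not at hcon
    refine hne (hp0 (m - d • y.ν) (fun i hi => hcon i ?_) h (mem_coarse hh ?_))
    · rw [← hi]; abel
    · rw [rl_apply, AddMonoidHom.id_apply]
  have hpq : ∀ d, ∀ h ∈ 𝒜 (d, d • y.ν), p h = y.q h := by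
    intro d h hh
    refine hp1 h (mem_coarse hh ?_)
    rw [rl_apply, AddMonoidHom.id_apply, sub_self]
  obtain ⟨dz, hz1, hhz, hpz1⟩ := exists_comp hz hpz
  obtain ⟨f, hf, hqf⟩ := exists_deg_one_ne hX.gen y.nv y.fix
  have hpf : p f ≠ 0 := by
    rw [hpq 1 f (by rw [one_smul]; exact hf)]
    exact hqf
  -- a functional positive on `a`
  obtain ⟨k0, hk0⟩ := Function.ne_iff.1 ha0
  set l : (Fin r → ℤ) →+ ℤ := (AddMonoidHom.mulLeft (a k0)).comp (Pi.evalAddMonoidHom _ k0) with hl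
  have hla : 0 < l a := by
    have : l a = a k0 * a k0 := rfl
    rw [this]
    exact mul_self_pos.mpr (by simpa using hk0)
  -- the degree of the curve
  set S1 : Set ℕ := {i | ∃ h ∈ 𝒜 (1, y.ν + i • a), p h ≠ 0} with hS1
  have hS1f : S1.Finite := by
    refine Set.Finite.of_finite_image ((finite_weights hX).subset ?_)
      (f := fun i : ℕ => y.ν + i • a) ?_
    · rintro _ ⟨i, ⟨h, hh, hne⟩, rfl⟩
      exact ⟨h, hh, fun h0 => hne (by rw [h0, map_zero])⟩
    · intro i _ j _ hij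
      exact nsmul_inj' ha0 (add_left_cancel hij)
  have hS1n : S1.Nonempty := ⟨0, f, by rw [zero_smul, add_zero]; exact hf, hpf⟩
  obtain ⟨n, ⟨g, hg, hpg⟩, hmax⟩ := Set.exists_max_image S1 id hS1f hS1n
  simp only [id] at hmax
  set ν' : Fin r → ℤ := y.ν + n • a with hν'
  have hle : ∀ d (i : ℕ), ∀ h ∈ 𝒜 (d, d • y.ν + i • a), p h ≠ 0 → i ≤ d * n := by
    intro d i h hh hne
    have h1 := slope_le hX.gen (-l) (-(l ν')) (RingHom.ker p) (by
      intro m h hh hne
      have hne' : p h ≠ 0 := fun h0 => hne (RingHom.mem_ker.mpr h0)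
      obtain ⟨i, hi⟩ := hpi 1 m h hh hne'
      rw [one_smul] at hi
      have h2 := hmax i ⟨h, hi ▸ hh, hne'⟩
      rw [hi, hν', AddMonoidHom.neg_apply, map_add, map_add, map_nsmul, map_nsmul]
      simp only [nsmul_eq_mul]
      have h3 : (i : ℤ) * l a ≤ (n : ℤ) * l a :=
        mul_le_mul_of_nonneg_right (by exact_mod_cast h2) hla.le
      linarith) d _ h hh (fun h0 => hne (RingHom.mem_ker.mp h0))
    rw [hν', AddMonoidHom.neg_apply] at h1
    simp only [map_add, map_nsmul] at h1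
    simp only [nsmul_eq_mul] at h1
    have h2 : (i : ℤ) * l a ≤ ((d * n : ℕ) : ℤ) * l a := by
      push_cast
      linarith
    exact_mod_cast le_of_mul_le_mul_right h2 hla
  have hn1 : 1 ≤ n := by
    have h1 := hle dz 1 hz1 (by rw [one_smul]; exact hhz) hpz1
    by_contra h0
    have : n = 0 := by omega
    rw [this, mul_zero] at h1
    omega
  have hdzn : 1 ≤ dz * n := hle dz 1 hz1 (by rw [one_smul]; exact hhz) hpz1
  -- the homomorphism
  set e : ℕ × (Fin r → ℤ) → ℕ := fun dm =>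
    if h : ∃ i : ℕ, dm.2 = dm.1 • y.ν + i • a then h.choose else 0 with he
  have hei : ∀ d (i : ℕ), e (d, d • y.ν + i • a) = i := by
    intro d i
    have hex : ∃ j : ℕ, d • y.ν + i • a = d • y.ν + j • a := ⟨i, rfl⟩
    have h1 : e (d, d • y.ν + i • a) = hex.choose := dif_pos hex
    rw [h1]
    have h2 := hex.choose_spec
    exact (nsmul_inj' ha0 (add_left_cancel h2)).symm
  obtain ⟨φ, hφ⟩ := exists_algHom 𝒜
    (fun dm => (Polynomial.monomial (R := ℂ) (e dm)).comp p.toLinearMap) (by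
      have h1 : e 0 = 0 := by
        have h2 := hei 0 0
        rw [zero_smul, zero_smul, add_zero] at h2
        exact h2
      simp only [LinearMap.comp_apply, AlgHom.toLinearMap_apply, map_one, h1]
      exact Polynomial.monomial_zero_one) (by
      rintro ⟨d, m⟩ ⟨d', m'⟩ x hx x' hx'
      simp only [LinearMap.comp_apply, AlgHom.toLinearMap_apply, map_mul,
        Polynomial.monomial_mul_monomial]
      by_cases h0 : p x * p x' = 0
      · rw [h0, map_zero, map_zero]
      · obtain ⟨i, hi⟩ := hpi d m x hx (left_ne_zero_of_mul h0)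
        obtain ⟨j, hj⟩ := hpi d' m' x' hx' (right_ne_zero_of_mul h0)
        have h1 : ((d, m) + (d', m') : ℕ × (Fin r → ℤ)) =
            (d + d', (d + d') • y.ν + (i + j) • a) := by
          rw [hi, hj, Prod.mk_add_mk, add_smul, add_smul]
          congr 1
          abel
        rw [h1, hei, hi, hj, hei, hei])
  have hφ' : ∀ d (i : ℕ), ∀ h ∈ 𝒜 (d, d • y.ν + i • a), φ h = Polynomial.monomial i (p h) := by
    intro d i h hh
    rw [hφ _ h hh]
    simp only [LinearMap.comp_apply, AlgHom.toLinearMap_apply, hei]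
  have hφ0 : ∀ d m, ∀ h ∈ 𝒜 (d, m), p h = 0 → φ h = 0 := by
    intro d m h hh h0
    rw [hφ _ h hh]
    simp only [LinearMap.comp_apply, AlgHom.toLinearMap_apply, h0, map_zero]
  -- the other end
  have hwν : ∀ d (i : ℕ), slopeHom (-l) (-(l ν')) (d, d • y.ν + i • a) =
      (((d * n : ℕ) : ℤ) - i) * l a := by
    intro d i
    rw [slopeHom_apply, hν', AddMonoidHom.neg_apply]
    simp only [map_add, map_nsmul]
    simp only [nsmul_eq_mul]
    push_cast
    ring
  obtain ⟨q', hq1, hq0⟩ := exists_limit 𝒜 p (slopeHom (-l) (-(l ν'))) (by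
    rintro ⟨d, m⟩ h hh hne
    obtain ⟨i, hi⟩ := hpi d m h hh hne
    have h1 := hle d i h (hi ▸ hh) hne
    rw [hi, hwν]
    refine mul_nonneg ?_ hla.le
    have : (i : ℤ) ≤ ((d * n : ℕ) : ℤ) := by exact_mod_cast h1
    linarith)
  have hq'1 : ∀ d, ∀ h ∈ 𝒜 (d, d • y.ν + (d * n) • a), q' h = p h := by
    intro d h hh
    refine hq1 _ h hh ?_
    rw [hwν, sub_self, zero_mul]
  have hq'2 : ∀ d m, ∀ h ∈ 𝒜 (d, m), q' h ≠ 0 → m = d • y.ν + (d * n) • a ∧ p h ≠ 0 := by
    intro d m h hh hne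
    have h1 : slopeHom (-l) (-(l ν')) (d, m) = 0 := by
      by_contra h1
      exact hne (hq0 _ h hh h1)
    have h2 := hq1 _ h hh h1
    have h3 : p h ≠ 0 := by rw [← h2]; exact hne
    obtain ⟨i, hi⟩ := hpi d m h hh h3
    rw [hi, hwν] at h1
    rcases mul_eq_zero.1 h1 with h4 | h4
    · have h5 : i = d * n := by
        have : (i : ℤ) = ((d * n : ℕ) : ℤ) := by linarith
        exact_mod_cast this
      exact ⟨by rw [hi, h5], h3⟩
    · exact absurd h4 hla.ne'
  have hdν : ∀ d : ℕ, d • ν' = d • y.ν + (d * n) • a := by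
    intro d
    rw [hν', smul_add, smul_smul]
  have hg' : q' g ≠ 0 := by
    rw [hq'1 1 g (by rw [one_smul, one_mul]; exact hg)]
    exact hpg
  set y' : FP 𝒜 := ⟨q', ν', fun hv => hg' (hv 1 _ one_pos g hg), fun d m h hh hne => by
    rw [hdν]; exact (hq'2 d m h hh hne).1⟩ with hy'
  have hy'q : y'.q = q' := rfl
  have hy'ν : y'.ν = ν' := rfl
  -- local analysis at `y'`
  have hF' := fix_of_isFixed y'.fix
  obtain ⟨n', u', wt', G', hn'⟩ := exists_params_T hX y'.nv hF'
  set ℬ' := coarse 𝒜 (rl (AddMonoidHom.id (Fin r → ℤ)) y'.ν) with hℬ'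
  have hneg : ∀ w, ∀ x ∈ ℬ' w, p x ≠ 0 → ∃ j : ℕ, w = -(j • a) := by
    intro w x hx hne
    obtain ⟨d, h, hh, hph⟩ := exists_comp hx hne
    obtain ⟨i, hi⟩ := hpi d _ h hh hph
    have h1 := hle d i h (hi ▸ hh) hph
    refine ⟨d * n - i, ?_⟩
    rw [hy'ν, hdν] at hi
    have h2 : (d * n) • a = (d * n - i) • a + i • a := by
      rw [← add_smul, Nat.sub_add_cancel h1]
    rw [h2] at hi
    have h3 : (d * n - i) • a + w = 0 := by
      have : d • y.ν + ((d * n - i) • a + i • a) + w = d • y.ν + i • a + ((d * n - i) • a + w) := by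
        abel
      rw [this] at hi
      exact left_eq_add.mp hi.symm
    exact eq_neg_of_add_eq_zero_right h3
  have hzero : ∀ x ∈ ℬ' 0, p x = q' x := by
    intro x hx
    refine coarse_induction (P := fun x => p x = q' x) (by rw [map_zero, map_zero])
      (fun a b ha hb => by rw [map_add, map_add, ha, hb]) ?_ hx
    rintro ⟨d, m⟩ hi h hh
    rw [rl_apply, AddMonoidHom.id_apply, sub_eq_zero, hy'ν, hdν] at hi
    exact (hq'1 d h (hi ▸ hh)).symm
  obtain ⟨s, hs0, hs1, hs⟩ := G'.gen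
  have hps : p s = 1 := by rw [hzero s hs0]; exact hs1
  -- the parameters of `y'` along the curve
  set T : ℕ → Prop := fun j => 1 ≤ j ∧ ∃ k, wt' k = -(j • a) ∧ p (u' k) ≠ 0 with hT
  set A : ℕ → Prop := fun j => ∃ x ∈ ℬ' (-(j • a)), p x ≠ 0 with hA
  have hna : ∀ j : ℕ, 1 ≤ j → -(j • a) ≠ 0 := by
    intro j hj h0
    have h1 : j • a = 0 • a := by rw [zero_smul]; exact neg_eq_zero.mp h0
    have := nsmul_inj' ha0 h1
    omega
  have hT12 : ∀ j, T j → j = 1 ∨ j = 2 := by
    rintro j ⟨hj, k, hk, -⟩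
    have h1 : TangentWeight 𝒜 y'.q y'.ν (-(j • a)) := by
      rw [← hk]
      exact tangentWeight_of_wt hX y'.fix G' hn' (by rw [hk]; exact hna j hj)
    exact hU y' j hj h1
  have hstep : ∀ j, 1 ≤ j → A j → ∃ j', T j' ∧ j' ≤ j ∧ A (j - j') := by
    rintro j hj ⟨x, hx, hpx⟩
    have hxm : x ∈ mx y'.q := mem_mx.mpr (hF' _ (hna j hj) x hx)
    have hsx : s * x ∈ ℬ' (-(j • a)) := by
      have := SetLike.mul_mem_graded hs0 hx
      rwa [zero_add] at this
    obtain ⟨c, hc, hce⟩ := mem_span_hom G'.hom (hs x hxm) hsx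
    have h1 : p (s * x) ≠ 0 := by rw [map_mul, hps, one_mul]; exact hpx
    rw [hce, map_sum] at h1
    obtain ⟨k, -, hk⟩ := Finset.exists_ne_zero_of_sum_ne_zero h1
    rw [map_mul] at hk
    have hk1 := left_ne_zero_of_mul hk
    have hk2 := right_ne_zero_of_mul hk
    obtain ⟨j', hj'⟩ := hneg _ _ (G'.hom k) hk2
    obtain ⟨j'', hj''⟩ := hneg _ _ (hc k) hk1
    have hj'1 : 1 ≤ j' := by
      by_contra h0
      have h0' : j' = 0 := by omega
      rw [h0', zero_smul, neg_zero] at hj'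
      have h2 := G'.hom k
      rw [hj'] at h2
      rw [hzero _ h2] at hk2
      exact hk2 (G'.zero k)
    have h3 : j = j' + j'' := by
      rw [hj'] at hj''
      have h4 : j • a = (j' + j'') • a := by
        rw [add_smul]
        have h5 : -(j • a) = -(j'' • a) - j' • a := by
          rw [← hj'']; abel
        have h6 := congrArg Neg.neg h5
        rw [neg_neg] at h6
        rw [h6]; abel
      exact nsmul_inj' ha0 h4
    refine ⟨j', ⟨hj'1, k, hj', hk2⟩, by omega, c k, ?_, hk1⟩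
    have h4 : j - j' = j'' := by omega
    rw [h4, ← hj'']
    exact hc k
  have hAdn : ∀ d (i : ℕ), ∀ h ∈ 𝒜 (d, d • y.ν + i • a), p h ≠ 0 → A (d * n - i) := by
    intro d i h hh hne
    refine ⟨h, mem_coarse hh ?_, hne⟩
    rw [rl_apply, AddMonoidHom.id_apply, hy'ν, hdν]
    have h1 := hle d i h hh hne
    have h2 : (d * n) • a = (d * n - i) • a + i • a := by
      rw [← add_smul, Nat.sub_add_cancel h1]
    rw [h2]; abel
  have hAn : A n := by
    have h1 := hAdn 1 0 f (by rw [one_smul, zero_smul, add_zero]; exact hf) hpf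
    rwa [one_mul, Nat.sub_zero] at h1
  have hAz : A (dz * n - 1) := hAdn dz 1 hz1 (by rw [one_smul]; exact hhz) hpz1
  have hT1 : T 1 := by
    by_contra hT1
    have hTu : ∀ j j', T j → T j' → j = j' := by
      intro j j' hj hj'
      rcases hT12 j hj with h1 | h1
      · rw [h1] at hj
        exact absurd hj hT1
      · rcases hT12 j' hj' with h2 | h2
        · rw [h2] at hj'
          exact absurd hj' hT1
        · rw [h1, h2]
    obtain ⟨j0, hTj0, -, -⟩ := hstep n hn1 hAn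
    have hdvd : ∀ j, A j → j0 ∣ j := by
      intro j
      induction j using Nat.strong_induction_on with
      | _ j ih =>
        intro hj
        rcases Nat.eq_zero_or_pos j with h0 | h0
        · rw [h0]; exact dvd_zero _
        · obtain ⟨j', hTj', hle', hA'⟩ := hstep j h0 hj
          have h1 := hTu _ _ hTj' hTj0
          subst h1
          have h2 := ih (j - j') (by have := hTj'.1; omega) hA'
          have h3 : j = (j - j') + j' := by omega
          rw [h3]
          exact dvd_add h2 dvd_rfl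
    have hj0 : j0 = 1 := by
      have h1 := (hdvd n hAn).mul_left dz
      have h2 := hdvd _ hAz
      have h3 : dz * n = (dz * n - 1) + 1 := by omega
      rw [h3] at h1
      exact Nat.dvd_one.mp ((Nat.dvd_add_right h2).mp h1)
    rw [hj0] at hTj0
    exact hT1 hTj0
  obtain ⟨-, k1, hk1, hpk1⟩ := hT1
  rw [one_smul] at hk1
  have hpia : y'.Pi (-a) := by
    have h1 := tangentWeight_of_wt hX y'.fix G' hn' (i := k1) (by
      rw [hk1]; exact neg_ne_zero.mpr ha0)
    rw [hk1] at h1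
    exact h1
  refine ⟨y', n, φ, ⟨hn1, ha, hpia, rfl, ?_, ?_, ?_, ?_, ?_⟩, hφ'⟩
  · intro d m h hh hne
    have hph : p h ≠ 0 := fun h0 => hne (hφ0 d m h hh h0)
    obtain ⟨i, hi⟩ := hpi d m h hh hph
    subst hi
    exact ⟨i, hle d i h hh hph, rfl, p h, by
      rw [hφ' d i h hh, Polynomial.C_mul_X_pow_eq_monomial]⟩
  · have h1 : (Polynomial.aeval (0 : ℂ)).comp φ = y.q := by
      refine algHom_ext_hom 𝒜 ?_
      rintro ⟨d, m⟩ h hh
      rw [AlgHom.comp_apply]
      by_cases hph : p h = 0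
      · rw [hφ0 d m h hh hph, map_zero]
        by_contra hne
        have hm := y.fix d m h hh (Ne.symm hne)
        subst hm
        exact hne (by rw [← hpq d h hh, hph])
      · obtain ⟨i, hi⟩ := hpi d m h hh hph
        subst hi
        rw [hφ' d i h hh, Polynomial.aeval_monomial]
        rcases Nat.eq_zero_or_pos i with h0 | h0
        · subst h0
          rw [pow_zero, mul_one]
          rw [zero_smul, add_zero] at hh
          exact hpq d h hh
        · rw [zero_pow (by omega), mul_zero]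
          by_contra hne
          have hm := y.fix d _ h hh (Ne.symm hne)
          have h2 : i • a = 0 • a := by
            rw [zero_smul]
            exact left_eq_add.mp hm.symm
          have := nsmul_inj' ha0 h2
          omega
    intro h
    rw [← h1, AlgHom.comp_apply, Polynomial.coe_aeval_eq_eval]
  · intro d m h hh
    rw [hy'q]
    by_cases hph : p h = 0
    · rw [hφ0 d m h hh hph, Polynomial.coeff_zero]
      by_contra hne
      exact (hq'2 d m h hh (Ne.symm hne)).2 hph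
    · obtain ⟨i, hi⟩ := hpi d m h hh hph
      subst hi
      rw [hφ' d i h hh, Polynomial.coeff_monomial]
      by_cases h0 : i = d * n
      · subst h0
        rw [if_pos rfl, hq'1 d h hh]
      · rw [if_neg h0]
        by_contra hne
        have h1 := (hq'2 d _ h hh (Ne.symm hne)).1
        exact h0 (nsmul_inj' ha0 (add_left_cancel h1))
  · refine ⟨dz, hz1, hhz, ?_⟩
    rw [hφ' dz 1 hz1 (by rw [one_smul]; exact hhz), Polynomial.coeff_monomial, if_pos rfl]
    exact hpz1
  · have h1 := G'.hom k1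
    rw [hk1] at h1
    obtain ⟨d, h, hh, hph⟩ := exists_comp h1 hpk1
    obtain ⟨i, hi⟩ := hpi d _ h hh hph
    have h2 : i + 1 = d * n := by
      rw [hy'ν, hdν] at hi
      have h3 : (i + 1) • a = (d * n) • a := by
        rw [succ_nsmul]
        have h4 : (d * n) • a + -a = i • a := by
          rw [add_assoc] at hi
          exact add_left_cancel hi
        rw [← h4]; abel
      exact nsmul_inj' ha0 h3
    refine ⟨d, h, by rw [sub_eq_add_neg]; exact hh, ?_⟩
    rw [hφ' d i h (hi ▸ hh), Polynomial.coeff_monomial, if_pos (by omega)]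
    exact hph


omit [GradedAlgebra 𝒜] in
theorem nsmul_neg_ne {a : Fin r → ℤ} (ha : a ≠ 0) {j : ℕ} (hj : 1 ≤ j) : j • a ≠ 0 := by
  intro h0
  have h1 : j • a = 0 • a := by rw [h0, zero_smul]
  have := nsmul_inj' ha h1
  omega

/-- The multiples of a weight which are weights. -/
theorem mult_le_two (H : H63X.Hyp 𝒜) {a : Fin r → ℤ} (ha : Wt 𝒜 a) {j : ℕ} (hj : 1 ≤ j)
    (h : Wt 𝒜 (-(j • a))) : j = 1 ∨ j = 2 := by
  have ha0 : a ≠ 0 := by
    obtain ⟨y, hy⟩ := ha
    exact Pi_ne H hy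
  have hz : ∀ k : ℤ, k • a = 0 → k = 0 := fun k hk => (smul_eq_zero.1 hk).resolve_right ha0
  have hc : ∀ n : ℕ, n • a = (n : ℤ) • a := fun n => (natCast_zsmul a n).symm
  have h1 : (-(j : ℤ)) • a = (1 : ℤ) • (-(j • a)) := by
    rw [one_smul, neg_smul, hc]
  rcases dich H ha h (by omega) h1 with h2 | h2 | h2 | h2 | h2 | h2
  · exfalso
    rw [hc] at h2
    have h3 : ((j : ℤ) + 1) • a = 0 := by
      rw [add_smul, one_smul]
      nth_rewrite 2 [h2]
      abel
    have := hz _ h3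
    omega
  · left
    rw [neg_neg, hc] at h2
    have h3 : ((j : ℤ) - 1) • a = 0 := by
      rw [sub_smul, one_smul, ← h2, sub_self]
    have := hz _ h3
    omega
  · exfalso
    rw [hc, hc] at h2
    have h3 : ((j : ℤ) + (2 : ℕ)) • a = 0 := by
      rw [add_smul, ← h2]
      abel
    have := hz _ h3
    omega
  · right
    rw [hc, hc] at h2
    have h3 : ((j : ℤ) - (2 : ℕ)) • a = 0 := by
      rw [sub_smul, ← neg_inj.1 h2, sub_self]
    have := hz _ h3
    omega
  · exfalso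
    rw [hc, ← natCast_zsmul, smul_neg, smul_smul] at h2
    have h3 : (((2 : ℕ) : ℤ) * j + 1) • a = 0 := by
      rw [add_smul, one_smul]
      nth_rewrite 2 [h2]
      abel
    have := hz _ h3
    push_cast at this
    omega
  · exfalso
    rw [hc, ← natCast_zsmul, smul_neg, neg_neg, smul_smul] at h2
    have h3 : (((2 : ℕ) : ℤ) * j - 1) • a = 0 := by
      rw [sub_smul, one_smul, ← h2, sub_self]
    have := hz _ h3
    push_cast at this
    omega

/-- **The curve tangent to a given vector** `τ` of weight `a` at `z`. -/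
theorem exists_curve_dir (H : H63X.Hyp 𝒜) (z : FP 𝒜) {a : Fin r → ℤ} (ha0 : a ≠ 0)
    {τ : R →ₗ[ℂ] ℂ} (ht : IsTangent z.q τ) (htw : HasWeight 𝒜 z.ν a τ) (hτ : τ ≠ 0) :
    ∃ (y : FP 𝒜) (n : ℕ) (φ : R →ₐ[ℂ] Polynomial ℂ), Curve z y a n φ ∧
      ∃ κ : ℂ, κ ≠ 0 ∧ ∀ d m, ∀ h ∈ 𝒜 (d, m), (φ h).coeff 1 = κ * τ h := by
  have hpi : z.Pi a := tangentWeight_of_ne z.fix ha0 ht htw hτ
  obtain ⟨p, hp0, hp1, κ, hκ, hp2⟩ := exists_pt_dir H.hX z ha0 ht htw hτ
  have hcrs : ∀ d, ∀ h ∈ 𝒜 (d, d • z.ν + a),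
      h ∈ coarse 𝒜 (rl (AddMonoidHom.id (Fin r → ℤ)) z.ν) a := fun d h hh =>
    mem_coarse hh (by rw [rl_apply, AddMonoidHom.id_apply]; abel)
  obtain ⟨y, n, φ, hφ, hφ1⟩ := exists_curve_of_pt H.hX z ha0 hpi hp0 hp1 (by
      by_contra hcon
      push Not at hcon
      apply hτ
      refine linearMap_ext_graded 𝒜 ?_
      rintro ⟨d, m⟩ h hh
      rw [LinearMap.zero_apply]
      by_contra hne
      have hm := htw d m h hh hne
      subst hm
      have h1 := hcon h (hcrs d h hh)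
      rw [hp2 h (hcrs d h hh)] at h1
      exact (mul_ne_zero hκ hne) h1)
    (fun y' j hj hj' => mult_le_two H ⟨z, hpi⟩ hj ⟨y', hj'⟩)
  refine ⟨y, n, φ, hφ, κ, hκ, fun d m h hh => ?_⟩
  by_cases hm : m = d • z.ν + a
  · subst hm
    rw [hφ1 d 1 h (by rwa [one_smul]), Polynomial.coeff_monomial, if_pos rfl,
      hp2 h (hcrs d h hh)]
  · have h1 : τ h = 0 := by
      by_contra hne
      exact hm (htw d m h hh hne)
    rw [h1, mul_zero]
    by_cases h2 : φ h = 0
    · rw [h2, Polynomial.coeff_zero]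
    · obtain ⟨i, -, hi, c, hc⟩ := hφ.hom d m h hh h2
      rw [hc, Polynomial.coeff_C_mul_X_pow, if_neg]
      rintro rfl
      exact hm (by rw [hi, one_smul])

/-- The reversed curve: its tangent vector at the upper end. -/
theorem exists_curve_dir' (H : H63X.Hyp 𝒜) (z : FP 𝒜) {ψ : Fin r → ℤ} (hψ : ψ ≠ 0)
    {τ : R →ₗ[ℂ] ℂ} (ht : IsTangent z.q τ) (htw : HasWeight 𝒜 z.ν ψ τ) (hτ : τ ≠ 0) :
    ∃ (y : FP 𝒜) (n : ℕ) (φ : R →ₐ[ℂ] Polynomial ℂ), Curve y z (-ψ) n φ ∧
      ∃ κ : ℂ, κ ≠ 0 ∧ ∀ d m, 1 ≤ d → ∀ h ∈ 𝒜 (d, m), (φ h).coeff (d * n - 1) = κ * τ h := by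
  obtain ⟨y, n, φ, hφ, κ, hκ, hc⟩ := exists_curve_dir H z hψ ht htw hτ
  obtain ⟨φ', hφ', hrel⟩ := exists_rev H hφ
  refine ⟨y, n, φ', hφ', κ, hκ, fun d m hd h hh => ?_⟩
  obtain ⟨i, hi, -, c, hc'⟩ := H490.form hφ hh
  have hdn : 1 ≤ d * n := Nat.mul_pos hd hφ.n1
  rw [hrel d m h hh i hi c hc', ← hc d m h hh, hc', Polynomial.coeff_C_mul_X_pow,
    Polynomial.coeff_C_mul_X_pow]
  by_cases h1 : i = 1
  · rw [if_pos (by omega), if_pos h1.symm]
  · rw [if_neg (by omega), if_neg (Ne.symm h1)]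

end Vale.Agent.P280.H143
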