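import Vale.Agent.P280.H143.Transport
import Vale.Agent.P280.H143.Dir
import Vale.Agent.P280.H587.Main

/-! P280, T7, helper143: (F2) of END. Tangent vectors at the upper end of a `T`-curve in terms of
the fields, if the tangent space at the lower end is generated by fields. -/

open DirectSum Vale.Agent.P280.T Vale.Agent.P280.H127

namespace Vale.Agent.P280.H143

open Vale.Agent.P280.N Vale.Agent.P280.H490

variable {r : ℕ} {R : Type} [CommRing R] [IsDomain R] [Algebra ℂ R]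
  {𝒜 : ℕ × (Fin r → ℤ) → Submodule ℂ R} [GradedAlgebra 𝒜]

omit [IsDomain R] in
/-- A tangent vector whose weight is not a tangent weight is the value of a field (zero, or a
multiple of the Euler field). -/
theorem lf_of_not_pi (y : FP 𝒜) {χ : Fin r → ℤ} (h : ¬ y.Pi χ) : Lf 𝒜 y χ := by
  intro t ht htw
  by_cases hχ : χ = 0
  · subst hχ
    have h1 : ∃ c : ℂ, ∀ d m, ∀ x ∈ 𝒜 (d, m), t x = c * d * y.q x := by
      by_contra hcon
      push Not at hcon
      exact h ⟨t, ht, htw, hcon⟩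
    obtain ⟨c, hc⟩ := h1
    obtain ⟨E, hE⟩ := H587.exists_euler 𝒜
    refine ⟨c • E, ?_, fun x => ?_⟩
    · intro d m x hx
      rw [Derivation.smul_apply, hE d m x hx, sub_zero]
      exact Submodule.smul_mem _ _ (Submodule.smul_mem _ _ hx)
    · have h2 : y.q.toLinearMap.comp ((c • E : Derivation ℂ R R) : R →ₗ[ℂ] R) = t := by
        apply linearMap_ext_graded 𝒜
        rintro ⟨d, m⟩ x hx
        change y.q ((c • E) x) = t x
        rw [Derivation.smul_apply, hE d m x hx, hc d m x hx, map_smul, map_smul, smul_eq_mul,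
          smul_eq_mul]
        ring
      exact LinearMap.congr_fun h2 x
  · refine ⟨0, ?_, fun x => ?_⟩
    · intro d m x _
      exact Submodule.zero_mem _
    · rw [Derivation.zero_apply, map_zero]
      by_contra hne
      exact h (tangentWeight_of_ne y.fix hχ ht htw (fun h0 => hne (by rw [h0]; rfl)))

/-- A derivation along the curve is a combination of fields up to high order. -/
theorem peel {y y' : FP 𝒜} {a : Fin r → ℤ} {n : ℕ} {φ : R →ₐ[ℂ] Polynomial ℂ}
    (hφ : Curve y y' a n φ) (ha : a ≠ 0) {χ : Fin r → ℤ} (hgen : ∀ k : ℕ, Lf 𝒜 y (χ + k • a))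
    {ε : R →ₗ[ℂ] Polynomial ℂ} (hε : Dr 𝒜 y a χ φ ε) (K : ℕ) :
    ∃ D : ℕ → Derivation ℂ R R, (∀ k, H93.IsHField 𝒜 (χ + k • a) (D k)) ∧
      (∀ k, χ + k • a ≠ 0 → ¬ y.Pi (χ + k • a) → D k = 0) ∧
      Dr 𝒜 y a χ φ (ε - ∑ k ∈ Finset.range K, mX φ k (D k)) ∧
      ∀ x, ∀ i < K, ((ε - ∑ k ∈ Finset.range K, mX φ k (D k)) x).coeff i = 0 := by
  classical
  induction K with
  | zero =>
    refine ⟨fun _ => 0, fun k d m x _ => Submodule.zero_mem _, fun _ _ _ => rfl, ?_, ?_⟩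
    · simpa using hε
    · intro x i hi
      exact absurd hi (Nat.not_lt_zero _)
  | succ K ih =>
    obtain ⟨D, hD, hD0, hDr, hz⟩ := ih
    set ε' := ε - ∑ k ∈ Finset.range K, mX φ k (D k) with hε'
    have hw := along_weight (y := y) (a := a) (μ := χ) hDr.2 K
    rw [natCast_zsmul] at hw
    have ht := along_tangent hφ.ev hDr.1 hz
    obtain ⟨E, hE, hE0, hEv⟩ : ∃ E : Derivation ℂ R R, H93.IsHField 𝒜 (χ + K • a) E ∧
        (χ + K • a ≠ 0 → ¬ y.Pi (χ + K • a) → E = 0) ∧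
        ∀ x, y.q (E x) = ((Polynomial.lcoeff ℂ K).comp ε') x := by
      by_cases h : χ + K • a ≠ 0 ∧ ¬ y.Pi (χ + K • a)
      · refine ⟨0, fun d m x _ => Submodule.zero_mem _, fun _ _ => rfl, fun x => ?_⟩
        rw [Derivation.zero_apply, map_zero]
        by_contra hne
        exact h.2 (tangentWeight_of_ne y.fix h.1 ht hw (fun h0 => hne (by rw [h0]; rfl)))
      · obtain ⟨E, hE, hEv⟩ := hgen K _ ht hw
        exact ⟨E, hE, fun h1 h2 => absurd ⟨h1, h2⟩ h, hEv⟩
    have hcomb := hDr.comb ha (dr_mX hφ hE) 1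
    refine ⟨fun k => if k = K then E else D k, ?_, ?_, ?_⟩
    · intro k
      by_cases hk : k = K
      · simp only [if_pos hk]
        rw [hk]
        exact hE
      · simp only [if_neg hk]
        exact hD k
    · intro k h1 h2
      by_cases hk : k = K
      · subst hk
        simp only [if_pos]
        exact hE0 h1 h2
      · simp only [if_neg hk]
        exact hD0 k h1 h2
    have hsum : ε - ∑ k ∈ Finset.range (K + 1), mX φ k (if k = K then E else D k) =
        ε' - (1 : ℂ) • mX φ K E := by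
      rw [Finset.sum_range_succ, if_pos rfl, hε', one_smul, sub_sub]
      congr 2
      refine Finset.sum_congr rfl fun k hk => ?_
      rw [if_neg (by have := Finset.mem_range.1 hk; omega)]
    rw [hsum]
    refine ⟨hcomb, ?_⟩
    intro x i hi
    have hx : (ε' - (1 : ℂ) • mX φ K E) x = ε' x - Polynomial.X ^ K * φ (E x) := by
      rw [one_smul]
      rfl
    rw [hx, Polynomial.coeff_sub]
    rcases Nat.lt_succ_iff_lt_or_eq.1 hi with h1 | h1
    · rw [hz x i h1, Polynomial.coeff_X_pow_mul', if_neg (by omega), sub_zero]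
    · rw [h1, Polynomial.coeff_X_pow_mul', if_pos le_rfl, Nat.sub_self,
        Polynomial.coeff_zero_eq_eval_zero (φ (E x)), hφ.ev, hEv x, LinearMap.comp_apply,
        Polynomial.lcoeff_apply, sub_self]

/-- **(F2).** `y` is the lower end and `y'` the upper end of the curve. A tangent vector `t` of
weight `χ` at `y'` is the coefficient of `X ^ (d n)` of `∑ X ^ k φ (D k h)`, where the `D k` are
fields of weight `χ + k a`; the coefficients of higher degree vanish. -/
theorem f2 (H : H63X.Hyp 𝒜) {y y' : FP 𝒜} {a : Fin r → ℤ} {n : ℕ}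
    {φ : R →ₐ[ℂ] Polynomial ℂ} (hφ : Curve y y' a n φ) {χ : Fin r → ℤ}
    (hgen : ∀ k : ℕ, y.Pi (χ + k • a) → Lf 𝒜 y (χ + k • a))
    {t : R →ₗ[ℂ] ℂ} (ht : IsTangent y'.q t) (htw : HasWeight 𝒜 y'.ν χ t) :
    ∃ (K : ℕ) (D : ℕ → Derivation ℂ R R), (∀ k, H93.IsHField 𝒜 (χ + k • a) (D k)) ∧
      (∀ k, χ + k • a ≠ 0 → ¬ y.Pi (χ + k • a) → D k = 0) ∧
      ∀ d m, ∀ h ∈ 𝒜 (d, m),
        t h = (∑ k ∈ Finset.range K, Polynomial.X ^ k * φ (D k h)).coeff (d * n) ∧
        ∀ j, d * n < j → (∑ k ∈ Finset.range K, Polynomial.X ^ k * φ (D k h)).coeff j = 0 := by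
  classical
  have ha := H63X.ne_zero_of_curve H hφ
  obtain ⟨δ, hδ, hdeg, htop⟩ := H63X.exists_lift H hφ ht htw
  have hdr : Dr 𝒜 y a χ φ δ := ⟨hδ, fun d m h hh hne => by
    obtain ⟨i, -, hi, hc⟩ := hdeg d m h hh hne
    exact ⟨i, hi, hc⟩⟩
  have hgen' : ∀ k : ℕ, Lf 𝒜 y (χ + k • a) := fun k => by
    by_cases h : y.Pi (χ + k • a)
    · exact hgen k h
    · exact lf_of_not_pi y h
  -- the bound of the orders
  obtain ⟨K, hK⟩ : ∃ K : ℕ, ∀ k : ℕ, K < k → ¬ (y.Pi (χ + k • a) ∨ χ + k • a = 0) := by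
    have hfin : {k : ℕ | y.Pi (χ + k • a) ∨ χ + k • a = 0}.Finite := by
      refine Set.Finite.of_finite_image (((H63X.C07.wt_finite H).union
        (Set.finite_singleton (0 : Fin r → ℤ))).subset ?_) (f := fun k : ℕ => χ + k • a) ?_
      · rintro _ ⟨k, hk | hk, rfl⟩
        · exact Or.inl ⟨y, hk⟩
        · exact Or.inr hk
      · intro k _ l _ hkl
        exact nsmul_inj ha (add_left_cancel hkl)
    obtain ⟨K, hK⟩ := hfin.bddAbove
    exact ⟨K, fun k hk hpi => absurd (hK hpi) (not_le.2 hk)⟩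
  obtain ⟨D, hD, hD0, hDr, hz⟩ := peel hφ ha hgen' hdr (K + 1)
  have hzero : ∀ x, (δ - ∑ k ∈ Finset.range (K + 1), mX φ k (D k)) x = 0 :=
    dr_zero (K := K) hφ (fun k hk h0 => hK k hk (Or.inr h0)) (fun k hk hpi => hK k hk (Or.inl hpi))
      hDr hz
  have hsum : ∀ x, δ x = ∑ k ∈ Finset.range (K + 1), Polynomial.X ^ k * φ (D k x) := by
    intro x
    have h1 := hzero x
    rw [LinearMap.sub_apply, LinearMap.sum_apply] at h1
    simp only [mX_apply] at h1
    exact sub_eq_zero.1 h1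
  refine ⟨K + 1, D, hD, hD0, fun d m h hh => ⟨?_, fun j hj => ?_⟩⟩
  · rw [← hsum, htop d m h hh]
  · rw [← hsum]
    by_cases hδh : δ h = 0
    · rw [hδh, Polynomial.coeff_zero]
    · obtain ⟨i, hi, -, e, he⟩ := hdeg d m h hh hδh
      rw [he, Polynomial.coeff_C_mul_X_pow, if_neg (by omega)]

/-- **(F2)**, only the term `k = 1`: the field `D 1` vanishes at `y'`. -/
theorem f2_one (H : H63X.Hyp 𝒜) {y y' : FP 𝒜} {a : Fin r → ℤ} {n : ℕ}
    {φ : R →ₐ[ℂ] Polynomial ℂ} (hφ : Curve y y' a n φ) {χ : Fin r → ℤ}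
    (hgen : ∀ k : ℕ, y.Pi (χ + k • a) → Lf 𝒜 y (χ + k • a))
    (h2 : ∀ k : ℕ, 2 ≤ k → χ + k • a ≠ 0 ∧ ¬ y.Pi (χ + k • a))
    {t : R →ₗ[ℂ] ℂ} (ht : IsTangent y'.q t) (htw : HasWeight 𝒜 y'.ν χ t) :
    ∃ D D' : Derivation ℂ R R, H93.IsHField 𝒜 χ D ∧ H93.IsHField 𝒜 (χ + a) D' ∧
      (χ + a ≠ 0 → ¬ y.Pi (χ + a) → D' = 0) ∧ (∀ x, y'.q (D' x) = 0) ∧
      ∀ d m, ∀ h ∈ 𝒜 (d, m), t h = y'.q (D h) + (φ (D' h)).coeff (d * n - 1) := by
  classical
  obtain ⟨K, D, hD, hD0, hs⟩ := f2 H hφ hgen ht htw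
  have hD1 := hD 1
  rw [one_smul] at hD1
  have hD00 := hD 0
  rw [zero_smul, add_zero] at hD00
  -- the sum has only two terms
  have hcoef : ∀ d m, ∀ h ∈ 𝒜 (d, m), ∀ j,
      (∑ k ∈ Finset.range K, Polynomial.X ^ k * φ (D k h)).coeff j =
        (if 0 < K then (φ (D 0 h)).coeff j else 0) +
        (if 1 < K then (Polynomial.X * φ (D 1 h)).coeff j else 0) := by
    intro d m h hh j
    have hz : ∀ k, 2 ≤ k → Polynomial.X ^ k * φ (D k h) = 0 := fun k hk => by
      rw [hD0 k (h2 k hk).1 (h2 k hk).2, Derivation.zero_apply, map_zero, mul_zero]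
    rcases K with _ | _ | K
    · simp
    · simp
    · rw [Finset.sum_range_succ', Finset.sum_range_succ', Finset.sum_eq_zero (fun k hk => by
        rw [hz _ (by omega)])]
      simp [add_comm]
  have hdegφ : ∀ d m, ∀ h ∈ 𝒜 (d, m), ∀ j, d * n < j → (φ h).coeff j = 0 := by
    intro d m h hh j hj
    obtain ⟨i, hi, -, c, hc⟩ := form hφ hh
    rw [hc, Polynomial.coeff_C_mul_X_pow, if_neg (by omega)]
  refine ⟨if 0 < K then D 0 else 0, if 1 < K then D 1 else 0, ?_, ?_, ?_, ?_, ?_⟩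
  · split_ifs
    · exact hD00
    · exact fun d m x _ => Submodule.zero_mem _
  · split_ifs
    · exact hD1
    · exact fun d m x _ => Submodule.zero_mem _
  · intro h1 h3
    split_ifs
    · exact hD0 1 (by rwa [one_smul]) (by rwa [one_smul])
    · rfl
  · by_cases hK : 1 < K
    · rw [if_pos hK]
      have h3 : y'.q.toLinearMap.comp (D 1 : R →ₗ[ℂ] R) = 0 := by
        apply linearMap_ext_graded 𝒜
        rintro ⟨d, m⟩ h hh
        change y'.q (D 1 h) = 0
        have h4 := (hs d m h hh).2 (d * n + 1) (by omega)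
        rw [hcoef d m h hh, if_pos (by omega), if_pos hK,
          hdegφ d _ _ (hD00 d m h hh) _ (by omega), zero_add, Polynomial.coeff_X_mul,
          hφ.ev' d _ _ (hD1 d m h hh)] at h4
        exact h4
      exact fun x => LinearMap.congr_fun h3 x
    · rw [if_neg hK]
      intro x
      rw [Derivation.zero_apply, map_zero]
  · intro d m h hh
    rw [(hs d m h hh).1, hcoef d m h hh]
    congr 1
    · by_cases hK : 0 < K
      · rw [if_pos hK, if_pos hK, hφ.ev' d _ _ (hD00 d m h hh)]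
      · rw [if_neg hK, if_neg hK, Derivation.zero_apply, map_zero]
    · by_cases hK : 1 < K
      · rw [if_pos hK, if_pos hK]
        rcases Nat.eq_zero_or_pos (d * n) with h3 | h3
        · have hd : d = 0 := (mul_eq_zero.1 h3).resolve_right (by have := hφ.n1; omega)
          subst hd
          obtain ⟨e, he⟩ := H.hX.zero m h hh
          rw [he, Derivation.map_algebraMap, map_zero, mul_zero, Polynomial.coeff_zero,
            Polynomial.coeff_zero]
        · obtain ⟨j, hj⟩ := Nat.exists_eq_succ_of_ne_zero h3.ne'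
          rw [hj, Polynomial.coeff_X_mul]
          rfl
      · rw [if_neg hK, if_neg hK, Derivation.zero_apply, map_zero, Polynomial.coeff_zero]

/-- **(F2)** in the direction of a tangent vector `τ` of weight `ψ` at `z`: the curve tangent to
`τ` has its other end at a point `y` with `z.ν = y.ν - n ψ`. If the tangent space at all such
points is generated by fields and `χ - k ψ`, `k ≥ 2`, is not a tangent weight there, then each
tangent vector `t` of weight `χ` at `z` is `q_z ∘ D + τ ∘ D'` for fields `D` of weight `χ` and `D'`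
of weight `χ - ψ`, where `D'` vanishes at `z`. -/
theorem f2_dir (H : H63X.Hyp 𝒜) (z : FP 𝒜) {ψ : Fin r → ℤ} (hψ : ψ ≠ 0)
    {τ : R →ₗ[ℂ] ℂ} (hτ : IsTangent z.q τ) (hτw : HasWeight 𝒜 z.ν ψ τ) (hτ0 : τ ≠ 0)
    {χ : Fin r → ℤ}
    (hgen : ∀ (y : FP 𝒜) (n : ℕ), 1 ≤ n → z.ν = y.ν - n • ψ → y.Pi (-ψ) →
      (∀ k : ℕ, y.Pi (χ + k • -ψ) → Lf 𝒜 y (χ + k • -ψ)) ∧
      ∀ k : ℕ, 2 ≤ k → χ + k • -ψ ≠ 0 ∧ ¬ y.Pi (χ + k • -ψ))
    {t : R →ₗ[ℂ] ℂ} (ht : IsTangent z.q t) (htw : HasWeight 𝒜 z.ν χ t) :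
    ∃ D D' : Derivation ℂ R R, H93.IsHField 𝒜 χ D ∧ H93.IsHField 𝒜 (χ - ψ) D' ∧
      (∀ x, z.q (D' x) = 0) ∧ ∀ x, t x = z.q (D x) + τ (D' x) := by
  obtain ⟨y, n, φ, hφ, κ, hκ, hc⟩ := exists_curve_dir' H z hψ hτ hτw hτ0
  obtain ⟨h1, h2⟩ := hgen y n hφ.n1 (by rw [hφ.nu, smul_neg]; abel) hφ.ya
  obtain ⟨D, D', hD, hD', -, h0, hh⟩ := f2_one H hφ h1 h2 ht htw
  refine ⟨D, κ • D', hD, ?_, ?_, ?_⟩
  · intro d m x hx
    rw [Derivation.smul_apply]
    exact Submodule.smul_mem _ _ (by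
      have := hD' d m x hx
      rwa [← sub_eq_add_neg] at this)
  · intro x
    rw [Derivation.smul_apply, map_smul, h0, smul_zero]
  · have h3 : t = z.q.toLinearMap.comp (D : R →ₗ[ℂ] R) + τ.comp ((κ • D' : Derivation ℂ R R) : R →ₗ[ℂ] R) := by
      apply linearMap_ext_graded 𝒜
      rintro ⟨d, m⟩ h hm
      change t h = z.q (D h) + τ ((κ • D') h)
      rw [hh d m h hm, Derivation.smul_apply, map_smul, smul_eq_mul]
      rcases Nat.eq_zero_or_pos d with hd | hd
      · subst hd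
        obtain ⟨e, he⟩ := H.hX.zero m h hm
        rw [he, Derivation.map_algebraMap, Derivation.map_algebraMap, map_zero, map_zero,
          Polynomial.coeff_zero, map_zero, mul_zero]
      · rw [hc d _ hd _ (hD' d m h hm)]
    exact fun x => LinearMap.congr_fun h3 x

end Vale.Agent.P280.H143
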