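import Vale.Agent.P280.H749.Cov
import Vale.Agent.P280.H690.LocHom

/-! P280: a compatible family of local functions of positive weights is a coboundary (vanishing of
the first cohomology of the structure sheaf in the weights which are positive for a generic
functional). -/

open DirectSum Vale.Agent.P280.T Vale.Agent.P280.H127 Vale.Agent.P280.N Vale.Agent.P280.H749

namespace Vale.Agent.P280.H143

variable {r : ℕ} {R : Type} [CommRing R] [IsDomain R] [Algebra ℂ R]
  {𝒜 : ℕ × (Fin r → ℤ) → Submodule ℂ R} [GradedAlgebra 𝒜]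

/-- The homogeneous functions such that the glued functions are good where they do not vanish. -/
def sset {ι : Type} (𝒜 : ℕ × (Fin r → ℤ) → Submodule ℂ R) (T : Finset (R × (ι → FractionRing R)))
    (psi : ι → FractionRing R) : Set R :=
  {t | (∃ k m, 0 < k ∧ t ∈ 𝒜 (k, m)) ∧ ∀ q : R →ₐ[ℂ] ℂ, q t ≠ 0 → ∀ P ∈ T, q P.1 ≠ 0 →
    ∀ i, Rg q (psi i - P.2 i)}

/-- **SINK.** A compatible family of local functions of weights which are positive for a generic
functional is the restriction of rational functions, modulo regular ones. -/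
theorem sink (H : H63X.Hyp 𝒜) {c : (Fin r → ℤ) →+ ℤ} (hc : ∀ μ, Wt 𝒜 μ → c μ ≠ 0)
    {ι : Type} [Finite ι] {θ : ι → Fin r → ℤ} (hth : ∀ i, 0 < c (θ i)) {T : Finset (R × (ι → FractionRing R))}
    (hT : Cv 𝒜 θ T)
    (hall : ∀ z : R →ₐ[ℂ] ℂ, (∀ P ∈ T, z P.1 = 0) → IsVertex 𝒜 z) :
    ∃ psi : ι → FractionRing R, (∀ i, HK 𝒜 0 (θ i) (psi i)) ∧
      ∀ P ∈ T, ∀ q : R →ₐ[ℂ] ℂ, q P.1 ≠ 0 → ∀ i, Rg q (psi i - P.2 i) := by
  classical
  have := Fintype.ofFinite ι
  have hX := H.hX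
  have hft := hX.finiteType
  have := noeth hX
  -- the sink
  have hnc : ∀ μ, Wt 𝒜 μ → (-c) μ ≠ 0 := fun μ hμ => by
    rw [AddMonoidHom.neg_apply]
    exact neg_ne_zero.2 (hc μ hμ)
  obtain ⟨s, hs⟩ := H63X.exists_pos H (-c) hnc
  obtain ⟨g, hg, hgs⟩ := exists_deg_one_ne hX.gen s.nv s.fix
  have hgrad : g ∈ (cvI T).radical := by
    by_contra hcon
    obtain ⟨z, hz, hzg⟩ := exists_point hcon
    exact hzg (hall z (cvI_zero.1 hz) 1 s.ν one_pos g hg)
  obtain ⟨psi, hpsi, hpsi2⟩ := hT.glue hft hg hgrad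
  refine ⟨psi, hpsi, ?_⟩
  set J : Ideal R := Ideal.span (sset 𝒜 T psi) with hJ
  have hgJ : g ∈ J := Ideal.subset_span ⟨⟨1, s.ν, one_pos, hg⟩,
    fun q hq P hP hqP i => hpsi2 P hP q hq hqP i⟩
  have hJhom : ∀ x ∈ J, ∀ i, ((DirectSum.decompose 𝒜 x) i : R) ∈ J := by
    have h1 : J.IsHomogeneous 𝒜 := Ideal.homogeneous_span 𝒜 _ (by
      rintro t ⟨⟨k, m, -, ht⟩, -⟩
      exact ⟨(k, m), ht⟩)
    intro x hx i
    exact h1 i hx
  -- points outside of the zero set of `J` are good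
  have hgood : ∀ q : R →ₐ[ℂ] ℂ, (∃ x ∈ J, q x ≠ 0) → ∀ P ∈ T, q P.1 ≠ 0 →
      ∀ i, Rg q (psi i - P.2 i) := by
    rintro q ⟨x, hx, hqx⟩
    by_contra hcon
    apply hqx
    have h1 : J ≤ RingHom.ker q := by
      rw [hJ, Ideal.span_le]
      intro t ht
      by_contra h2
      exact hcon (ht.2 q h2)
    exact h1 hx
  by_contra hbad
  have hkey : ∃ z : R →ₐ[ℂ] ℂ, (∀ x ∈ J, z x = 0) ∧ ¬ IsVertex 𝒜 z := by
    push Not at hbad
    obtain ⟨P, hP, q, hqP, i, hi⟩ := hbad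
    refine ⟨q, ?_, ?_⟩
    · intro x hx
      by_contra hcon
      exact hi (hgood q ⟨x, hx, hcon⟩ P hP hqP i)
    · intro hv
      obtain ⟨d, m, hd, hPm⟩ := hT.hom P hP
      exact hqP (hv d m hd _ hPm)
  obtain ⟨γ0, q, hq0, hqI, hq1, hq2, ν, hν, -⟩ := exists_lowest hX (lexF 0 (-c)) hJhom hkey
  have hfix : IsFixed 𝒜 q ν := by
    intro d m h hh hne
    apply lexF_inj 0 (-c)
    rw [hq1 d m h hh hne, map_nsmul, hν]
  set z : FP 𝒜 := ⟨q, ν, hq0, hfix⟩ with hz
  have hrad : ∀ (d : ℕ) (m : Fin r → ℤ), 0 < c (m - d • ν) → ∀ x ∈ 𝒜 (d, m), x ∈ J.radical := by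
    intro d m hlm x hx
    by_contra hcon
    have h2 := hq2 d m x hx hcon
    have h3 : lexF 0 (-c) (m - d • ν) < 0 := lexF_neg rfl (by
      rw [AddMonoidHom.neg_apply]
      omega)
    rw [map_sub, map_nsmul, hν, sub_neg] at h3
    exact absurd h3 (not_lt.2 h2)
  -- a member of the cover at `z`
  obtain ⟨P1, hP1, hzP1⟩ : ∃ P ∈ T, z.q P.1 ≠ 0 := by
    by_contra hcon
    push Not at hcon
    exact hq0 (hall q hcon)
  obtain ⟨n, u, wt, G, hn, hu⟩ := H690.hgens H z
  have hF := fix_of_isFixed z.fix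
  have hx : ∀ i, HK 𝒜 0 (θ i) (psi i - P1.2 i) := fun i => (hpsi i).sub (hT.hk P1 hP1 i)
  -- powers of the elements of the radical are denominators
  have hpow : ∀ (t : R), t ∈ J.radical → ∀ i, ∃ N : ℕ, Rg z.q (iK t ^ N * (psi i - P1.2 i)) := by
    intro t ht i
    obtain ⟨N, a, ha⟩ := pow_of_rg hft (t := t * P1.1) (x := psi i - P1.2 i) (by
      intro q' hq'
      rw [map_mul] at hq'
      obtain ⟨M, hM⟩ := ht
      refine hgood q' ⟨t ^ M, hM, ?_⟩ P1 hP1 (right_ne_zero_of_mul hq') i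
      rw [map_pow]
      exact pow_ne_zero _ (left_ne_zero_of_mul hq'))
    refine ⟨N, a, P1.1 ^ N, ?_, ?_⟩
    · rw [map_pow]
      exact pow_ne_zero _ hzP1
    · rw [← ha, mul_pow, iK_mul, iK_pow, iK_pow]
      ring
  have hpowu : ∀ j, 0 < c (wt j) → ∀ i, ∃ N : ℕ, Rg z.q (iK (u j) ^ N * (psi i - P1.2 i)) := by
    intro j hj i
    have h0 : wt j ≠ 0 := by
      intro h0
      rw [h0, map_zero] at hj
      exact lt_irrefl _ hj
    obtain ⟨d, -, hd⟩ := hu j h0
    refine hpow _ (hrad d _ ?_ _ hd) i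
    rw [show z.ν = ν from rfl, add_sub_cancel_left]
    exact hj
  have hreg : ∀ i, Rg z.q (psi i - P1.2 i) := by
    by_cases h0 : ∃ i0, 0 < c (wt i0)
    · obtain ⟨i0, hi0⟩ := h0
      by_cases h1 : ∃ j, j ≠ i0 ∧ 0 < c (wt j)
      · obtain ⟨j, hji, hj⟩ := h1
        intro i
        obtain ⟨N, hN⟩ := hpowu i0 hi0 i
        obtain ⟨N', hN'⟩ := hpowu j hj i
        refine H690.two_par hX z G hn hji (x := psi i - P1.2 i) (N := N + N') ?_ ?_
        · have h2 := (Rg.iK (q := z.q) (u j ^ N)).mul hN'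
          rw [iK_pow] at h2
          rw [pow_add, mul_assoc]
          exact h2
        · have h2 := (Rg.iK (q := z.q) (u i0 ^ N')).mul hN
          rw [iK_pow] at h2
          rw [add_comm, pow_add, mul_assoc]
          exact h2
      · push Not at h1
        intro i
        obtain ⟨N, hN⟩ := hpowu i0 hi0 i
        have hu0 : u i0 ≠ 0 := by
          obtain ⟨v, hv1, hv2, -⟩ := G.exists_dual hF hn.le
          intro h2
          have h3 := hv2 i0 i0
          rw [h2, map_zero] at h3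
          simp at h3
        rw [rg_iff_regF] at hN ⊢
        refine H674.regF_of_pole hF G (A06.homK (hx i) z.ν) (i0 := i0) hu0
          ⟨N, by rw [map_pow]; exact hN⟩ ?_
        intro k mm hk hmm h2
        have h3 := congrArg c h2
        rw [zero_smul, sub_zero, map_add, map_nsmul, map_sum, nsmul_eq_mul] at h3
        have h4 : ∑ l, c (mm l • wt l) ≤ 0 := Finset.sum_nonpos fun l _ => by
          rw [map_nsmul]
          by_cases hl : l = i0
          · rw [hl, hmm, zero_smul]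
          · exact nsmul_nonpos (h1 l hl) _
        have h5 : (0 : ℤ) ≤ k * c (wt i0) := by positivity
        have h6 := hth i
        omega
    · exfalso
      push Not at h0
      have hpos : Pos (-c) z := by
        intro ψ hψ
        obtain ⟨i, hi⟩ := wt_of_tangentWeight hX hfix G hn hψ
        have h1 := h0 i
        rw [hi] at h1
        rw [AddMonoidHom.neg_apply]
        omega
      have h1 := H63X.pos_unique H (-c) hnc hs hpos
      exact A04.samePoint_ne h1 hg hgs (hqI g hgJ)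
  -- a good neighbourhood
  have h1 : ∀ i, ∃ (k : ℕ) (s : R), 0 < k ∧ s ∈ 𝒜 (k, k • z.ν) ∧ z.q s ≠ 0 ∧
      ∀ q : R →ₐ[ℂ] ℂ, q s ≠ 0 → Rg q (psi i - P1.2 i) := fun i => open_fun hX z (hx i) (hreg i)
  choose k s hk hs1 hs2 hs3 using h1
  obtain ⟨d, m, hd, hP1m⟩ := hT.hom P1 hP1
  have ht : P1.1 * ∏ i, s i ∈ J := by
    refine Ideal.subset_span ⟨⟨d + ∑ i, k i, m + ∑ i, k i • z.ν, by omega, ?_⟩, ?_⟩
    · have h2 : ∏ i, s i ∈ 𝒜 (∑ i, (k i, k i • z.ν)) :=
        SetLike.prod_mem_graded (A := 𝒜) _ _ fun i _ => hs1 i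
      have h3 := SetLike.mul_mem_graded hP1m h2
      have h4 : ((d, m) : ℕ × (Fin r → ℤ)) + ∑ i, (k i, k i • z.ν) =
          (d + ∑ i, k i, m + ∑ i, k i • z.ν) := by
        ext
        · simp [Prod.fst_sum]
        · simp [Prod.snd_sum]
      rwa [h4] at h3
    · intro q' hq' P hP hq'P i
      rw [map_mul, map_prod] at hq'
      have h2 := hs3 i q' (Finset.prod_ne_zero_iff.1 (right_ne_zero_of_mul hq') i
        (Finset.mem_univ i))
      have h3 := hT.cmp P1 hP1 P hP q' (left_ne_zero_of_mul hq') hq'P i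
      have h4 := h2.add h3
      rwa [sub_add_sub_cancel] at h4
  have h2 := hqI _ ht
  rw [map_mul, map_prod] at h2
  rcases mul_eq_zero.1 h2 with h3 | h3
  · exact hzP1 h3
  · obtain ⟨i, -, hi⟩ := Finset.prod_eq_zero_iff.1 h3
    exact hs2 i hi

end Vale.Agent.P280.H143
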