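import Vale.Agent.P280.H490.U2
import Vale.Agent.P280.H63X.Fin
import Vale.Agent.P280.N2.Defs

/-! P280, T7, helper143: transport of liftability along a `T`-curve, with the defect. -/

open DirectSum Vale.Agent.P280.T Vale.Agent.P280.H127

namespace Vale.Agent.P280.H143

open Vale.Agent.P280.N Vale.Agent.P280.H490

variable {r : ℕ} {R : Type} [CommRing R] [IsDomain R] [Algebra ℂ R]
  {𝒜 : ℕ × (Fin r → ℤ) → Submodule ℂ R} [GradedAlgebra 𝒜]

/-- Every tangent vector at `y` of weight `χ` is the value of a derivation of weight `χ`. -/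
def Lf (𝒜 : ℕ × (Fin r → ℤ) → Submodule ℂ R) (y : FP 𝒜) (χ : Fin r → ℤ) : Prop :=
  ∀ t : R →ₗ[ℂ] ℂ, IsTangent y.q t → HasWeight 𝒜 y.ν χ t →
    ∃ D : Derivation ℂ R R, H93.IsHField 𝒜 χ D ∧ ∀ x, y.q (D x) = t x

/-- `X ^ k` times the field `E` along the curve. -/
noncomputable def mX (φ : R →ₐ[ℂ] Polynomial ℂ) (k : ℕ) (E : Derivation ℂ R R) :
    R →ₗ[ℂ] Polynomial ℂ :=
  (LinearMap.mulLeft ℂ ((Polynomial.X : Polynomial ℂ) ^ k)).comp
    (φ.toLinearMap.comp (E : R →ₗ[ℂ] R))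

omit [IsDomain R] in
@[simp] theorem mX_apply (φ : R →ₐ[ℂ] Polynomial ℂ) (k : ℕ) (E : Derivation ℂ R R) (x : R) :
    mX φ k E x = Polynomial.X ^ k * φ (E x) := rfl

omit [IsDomain R] [GradedAlgebra 𝒜] in
theorem dr_mX {y y' : FP 𝒜} {a : Fin r → ℤ} {n : ℕ} {φ : R →ₐ[ℂ] Polynomial ℂ}
    (hφ : Curve y y' a n φ) {χ : Fin r → ℤ} {k : ℕ} {E : Derivation ℂ R R}
    (hE : H93.IsHField 𝒜 (χ + k • a) E) : Dr 𝒜 y a χ φ (mX φ k E) := by
  constructor
  · intro x z
    simp only [mX_apply, Derivation.leibniz, smul_eq_mul, map_add, map_mul]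
    ring
  · intro d m h hh hne
    rw [mX_apply] at hne ⊢
    have h0 : φ (E h) ≠ 0 := fun h0 => hne (by rw [h0, mul_zero])
    obtain ⟨i, -, hm, c, hc⟩ := hφ.hom d _ (E h) (hE d m h hh) h0
    refine ⟨i + k, ?_, c, ?_⟩
    · have h1 : m = d • y.ν + i • a + (χ + k • a) := by rw [← hm]; abel
      rw [h1, add_smul]
      abel
    · rw [hc, pow_add]
      ring

/-- Removing the leading coefficients one after the other. -/
theorem exists_coeffs {y y' : FP 𝒜} {a : Fin r → ℤ} {n : ℕ} {φ : R →ₐ[ℂ] Polynomial ℂ}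
    (hφ : Curve y y' a n φ) (ha : a ≠ 0) {χ : Fin r → ℤ} {E : ℕ → Derivation ℂ R R}
    (hE : ∀ k, H93.IsHField 𝒜 (χ + k • a) (E k))
    (hc : ∀ k : ℕ, 1 ≤ k → ∀ t : R →ₗ[ℂ] ℂ, IsTangent y.q t → HasWeight 𝒜 y.ν (χ + k • a) t →
      ∃ b : ℂ, ∀ x, t x = b * y.q (E k x))
    {ε : R →ₗ[ℂ] Polynomial ℂ} (hε : Dr 𝒜 y a χ φ ε) (h0 : ∀ x, (ε x).coeff 0 = 0) (K : ℕ) :
    ∃ c : ℕ → ℂ, c 0 = 0 ∧
      Dr 𝒜 y a χ φ (ε - ∑ k ∈ Finset.range (K + 1), c k • mX φ k (E k)) ∧
      ∀ x, ∀ i < K + 1,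
        ((ε - ∑ k ∈ Finset.range (K + 1), c k • mX φ k (E k)) x).coeff i = 0 := by
  induction K with
  | zero =>
    refine ⟨fun _ => 0, rfl, ?_, ?_⟩
    · simpa using hε
    · intro x i hi
      obtain rfl : i = 0 := by omega
      simpa using h0 x
  | succ K ih =>
    obtain ⟨c, hc0, hD, hz⟩ := ih
    set ε' := ε - ∑ k ∈ Finset.range (K + 1), c k • mX φ k (E k) with hε'
    have hw := along_weight (y := y) (a := a) (μ := χ) hD.2 (K + 1)
    rw [natCast_zsmul] at hw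
    obtain ⟨b, hb⟩ := hc (K + 1) (by omega) _ (along_tangent hφ.ev hD.1 hz) hw
    have hcomb := hD.comb ha (dr_mX hφ (hE (K + 1))) b
    refine ⟨fun k => if k = K + 1 then b else c k, ?_, ?_, ?_⟩
    · simpa using hc0
    all_goals
      have hsum : ε - ∑ k ∈ Finset.range (K + 1 + 1),
          (if k = K + 1 then b else c k) • mX φ k (E k) = ε' - b • mX φ (K + 1) (E (K + 1)) := by
        rw [Finset.sum_range_succ, if_pos rfl, hε', sub_sub]
        congr 2
        refine Finset.sum_congr rfl fun k hk => ?_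
        rw [if_neg (by have := Finset.mem_range.1 hk; omega)]
      rw [hsum]
    · exact hcomb
    · intro x i hi
      have hx : (ε' - b • mX φ (K + 1) (E (K + 1))) x =
          ε' x - Polynomial.C b * (Polynomial.X ^ (K + 1) * φ (E (K + 1) x)) := by
        rw [← Polynomial.smul_eq_C_mul]
        rfl
      rw [hx, Polynomial.coeff_sub, Polynomial.coeff_C_mul]
      rcases Nat.lt_succ_iff_lt_or_eq.1 hi with h1 | h1
      · rw [hz x i h1, Polynomial.coeff_X_pow_mul', if_neg (by omega), mul_zero, sub_zero]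
      · rw [h1, Polynomial.coeff_X_pow_mul', if_pos le_rfl, Nat.sub_self]
        have h2 := hb x
        rw [LinearMap.comp_apply, Polynomial.lcoeff_apply] at h2
        rw [h2, Polynomial.coeff_zero_eq_eval_zero, hφ.ev, sub_self]

/-- A derivation along the curve of high order is zero. -/
theorem dr_zero {y y' : FP 𝒜} {a : Fin r → ℤ} {n : ℕ} {φ : R →ₐ[ℂ] Polynomial ℂ}
    (hφ : Curve y y' a n φ) {χ : Fin r → ℤ} {K : ℕ}
    (hne : ∀ k : ℕ, K < k → χ + k • a ≠ 0) (hK : ∀ k : ℕ, K < k → ¬ y.Pi (χ + k • a))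
    {ε : R →ₗ[ℂ] Polynomial ℂ} (hε : Dr 𝒜 y a χ φ ε) (h0 : ∀ x, ∀ i < K + 1, (ε x).coeff i = 0) :
    ∀ x, ε x = 0 := by
  classical
  by_contra hcon
  push Not at hcon
  have hex : ∃ k, ∃ h, (ε h).coeff k ≠ 0 := by
    obtain ⟨h, hh⟩ := hcon
    by_contra hcon
    push Not at hcon
    exact hh (Polynomial.ext fun k => by rw [hcon k h, Polynomial.coeff_zero])
  have hk := Nat.find_spec hex
  have hmin : ∀ h, ∀ i < Nat.find hex, (ε h).coeff i = 0 := by
    intro h i hi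
    have := Nat.find_min hex hi
    push Not at this
    exact this h
  generalize Nat.find hex = k at hk hmin
  obtain ⟨h2, hh2⟩ := hk
  have hkK : K < k := by
    by_contra hlt
    exact hh2 (h0 h2 k (by omega))
  have hw := along_weight (y := y) (a := a) (μ := χ) hε.2 k
  rw [natCast_zsmul] at hw
  exact hK k hkK (tangentWeight_of_ne y.fix (hne k hkK) (along_tangent hφ.ev hε.1 hmin) hw (by
    intro h0
    exact hh2 (LinearMap.congr_fun h0 h2)))

theorem transport_aux (H : H63X.Hyp 𝒜) {y y' : FP 𝒜} {a : Fin r → ℤ} {n : ℕ}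
    {φ : R →ₐ[ℂ] Polynomial ℂ} (hφ : Curve y y' a n φ) {χ : Fin r → ℤ}
    (hχ : ∀ k : ℕ, χ + k • a ≠ 0) (hreal : Lf 𝒜 y χ) {E : ℕ → Derivation ℂ R R}
    (hE : ∀ k, H93.IsHField 𝒜 (χ + k • a) (E k))
    (hc : ∀ k : ℕ, 1 ≤ k → ∀ t : R →ₗ[ℂ] ℂ, IsTangent y.q t → HasWeight 𝒜 y.ν (χ + k • a) t →
      ∃ b : ℂ, ∀ x, t x = b * y.q (E k x))
    (hE' : ∀ k : ℕ, 2 ≤ k → E k = 0 ∨ ∃ x, y'.q (E k x) ≠ 0)
    {t : R →ₗ[ℂ] ℂ} (ht : IsTangent y'.q t) (htw : HasWeight 𝒜 y'.ν χ t) :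
    ∃ D : Derivation ℂ R R, H93.IsHField 𝒜 χ D ∧ ∃ c : ℂ,
      ((∃ x, y'.q (E 1 x) ≠ 0) → c = 0) ∧
      ∀ d m, ∀ h ∈ 𝒜 (d, m), t h = y'.q (D h) + c * (φ (E 1 h)).coeff (d * n - 1) := by
  classical
  have ha := H63X.ne_zero_of_curve H hφ
  obtain ⟨δ, hδ, hdeg, htop⟩ := H63X.exists_lift H hφ ht htw
  have hdr : Dr 𝒜 y a χ φ δ := ⟨hδ, fun d m h hh hne => by
    obtain ⟨i, -, hi, hc⟩ := hdeg d m h hh hne
    exact ⟨i, hi, hc⟩⟩
  -- the value at `y`
  have hlt : ∀ h, ∀ i < 0, (δ h).coeff i = 0 := fun _ _ hi => absurd hi (Nat.not_lt_zero _)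
  have hw0 := along_weight (y := y) (a := a) (μ := χ) hdr.2 0
  rw [Nat.cast_zero, zero_smul, add_zero] at hw0
  obtain ⟨D, hD, hDv⟩ := hreal _ (along_tangent hφ.ev hδ hlt) hw0
  have hdrD : Dr 𝒜 y a χ φ (φ.toLinearMap.comp (D : R →ₗ[ℂ] R)) := dr_of_field hφ hD
  have hdr1 := hdr.comb ha hdrD 1
  set ε : R →ₗ[ℂ] Polynomial ℂ := δ - (1 : ℂ) • (φ.toLinearMap.comp (D : R →ₗ[ℂ] R)) with hε
  have hεa : ∀ x, ε x = δ x - φ (D x) := fun x => by
    rw [hε, one_smul]
    rfl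
  have h0 : ∀ x, (ε x).coeff 0 = 0 := by
    intro x
    have h1 := hDv x
    rw [LinearMap.comp_apply, Polynomial.lcoeff_apply] at h1
    rw [hεa, Polynomial.coeff_sub, ← h1, Polynomial.coeff_zero_eq_eval_zero (φ (D x)), hφ.ev,
      sub_self]
  -- the bound of the orders
  obtain ⟨K, hK⟩ : ∃ K : ℕ, ∀ k : ℕ, K < k → ¬ y.Pi (χ + k • a) := by
    have hfin : {k : ℕ | y.Pi (χ + k • a)}.Finite := by
      refine Set.Finite.of_finite_image ((H63X.C07.wt_finite H).subset ?_)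
        (f := fun k : ℕ => χ + k • a) ?_
      · rintro _ ⟨k, hk, rfl⟩
        exact ⟨y, hk⟩
      · intro k _ l _ hkl
        exact nsmul_inj ha (add_left_cancel hkl)
    obtain ⟨K, hK⟩ := hfin.bddAbove
    exact ⟨K, fun k hk hpi => absurd (hK hpi) (not_le.2 hk)⟩
  obtain ⟨c, hc0, hDr, hz⟩ := exists_coeffs hφ ha hE hc hdr1 h0 K
  have hzero := dr_zero hφ (fun k _ => hχ k) hK hDr hz
  have hsum : ∀ x, δ x = φ (D x) +
      ∑ k ∈ Finset.range (K + 1), Polynomial.C (c k) * (Polynomial.X ^ k * φ (E k x)) := by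
    intro x
    have h1 := hzero x
    rw [LinearMap.sub_apply, hεa, LinearMap.sum_apply] at h1
    have h2 : ∀ k, (c k • mX φ k (E k)) x = Polynomial.C (c k) * (Polynomial.X ^ k * φ (E k x)) :=
      fun k => by rw [← Polynomial.smul_eq_C_mul]; rfl
    simp only [h2] at h1
    linear_combination h1
  have hdegφ : ∀ d m, ∀ h ∈ 𝒜 (d, m), ∀ j, d * n < j → (φ h).coeff j = 0 := by
    intro d m h hh j hj
    obtain ⟨i, hi, -, c, hc⟩ := form hφ hh
    rw [hc, Polynomial.coeff_C_mul_X_pow, if_neg (by omega)]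
  have hdegδ : ∀ d m, ∀ h ∈ 𝒜 (d, m), ∀ j, d * n < j → (δ h).coeff j = 0 := by
    intro d m h hh j hj
    by_cases hδh : δ h = 0
    · rw [hδh, Polynomial.coeff_zero]
    · obtain ⟨i, hi, -, e, he⟩ := hdeg d m h hh hδh
      rw [he, Polynomial.coeff_C_mul_X_pow, if_neg (by omega)]
  -- the coefficients `c k` vanish if `E k` is not zero at `y'`
  have hck : ∀ j : ℕ, (∃ x, y'.q (E j x) ≠ 0) → (∀ k, j < k → k ≤ K → c k = 0 ∨ E k = 0) →
      j ≤ K → c j = 0 := by
    intro j hj hgt hjK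
    by_contra hne
    obtain ⟨x, hx⟩ := hj
    apply hx
    have h2 : y'.q.toLinearMap.comp (E j : R →ₗ[ℂ] R) = 0 := by
      apply linearMap_ext_graded 𝒜
      rintro ⟨d, m⟩ h hh
      change y'.q (E j h) = 0
      rw [← hφ.ev' d _ _ (hE j d m h hh)]
      have h3 := congrArg (fun p => Polynomial.coeff p (d * n + j)) (hsum h)
      simp only [Polynomial.coeff_add, Polynomial.finsetSum_coeff, Polynomial.coeff_C_mul] at h3
      rcases Nat.eq_zero_or_pos j with hj0 | hj0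
      · exact absurd (by rw [hj0, hc0]) hne
      rw [hdegφ d _ _ (hD d m h hh) _ (by omega), hdegδ d m h hh _ (by omega), zero_add,
        Finset.sum_eq_single j] at h3
      · rw [Polynomial.coeff_X_pow_mul', if_pos (by omega), Nat.add_sub_cancel] at h3
        exact (mul_eq_zero.1 h3.symm).resolve_left hne
      · intro k hk hkj
        rcases Nat.lt_or_gt_of_ne hkj with h4 | h4
        · rw [Polynomial.coeff_X_pow_mul', if_pos (by omega),
            hdegφ d _ _ (hE k d m h hh) _ (by omega), mul_zero]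
        · rcases hgt k h4 (by have := Finset.mem_range.1 hk; omega) with h5 | h5
          · rw [h5, zero_mul]
          · rw [h5, Derivation.zero_apply, map_zero, mul_zero, Polynomial.coeff_zero, mul_zero]
      · intro h4
        exact absurd (Finset.mem_range.2 (by omega)) h4
    exact LinearMap.congr_fun h2 x
  have hP : ∀ m k : ℕ, K < k + m → 2 ≤ k → k ≤ K → c k = 0 ∨ E k = 0 := by
    intro m
    induction m with
    | zero => intro k h1 _ h2; omega
    | succ m ih =>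
      intro k h1 h2 h3
      rcases hE' k h2 with h4 | h4
      · exact Or.inr h4
      · exact Or.inl (hck k h4 (fun l hl hlK => ih l (by omega) (by omega) hlK) h3)
  have hP' : ∀ k : ℕ, 2 ≤ k → k ≤ K → c k = 0 ∨ E k = 0 := fun k h1 h2 =>
    hP (K + 1) k (by omega) h1 h2
  refine ⟨D, hD, if 1 ≤ K then c 1 else 0, ?_, ?_⟩
  · intro h1
    split_ifs with h2
    · exact hck 1 h1 (fun k hk hkK => hP' k hk hkK) h2
    · rfl
  · intro d m h hh
    rw [← htop d m h hh, hsum h, Polynomial.coeff_add, hφ.ev' d _ _ (hD d m h hh)]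
    congr 1
    rw [Polynomial.finsetSum_coeff]
    have hzero1 : ∀ k ∈ Finset.range (K + 1), k ≠ 1 →
        (Polynomial.C (c k) * (Polynomial.X ^ k * φ (E k h))).coeff (d * n) = 0 := by
      intro k hk hk1
      rcases Nat.eq_zero_or_pos k with h2 | h2
      · rw [h2, hc0, Polynomial.C_0, zero_mul, Polynomial.coeff_zero]
      · rcases hP' k (by omega) (by have := Finset.mem_range.1 hk; omega) with h3 | h3
        · rw [h3, Polynomial.C_0, zero_mul, Polynomial.coeff_zero]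
        · rw [h3, Derivation.zero_apply, map_zero, mul_zero, mul_zero, Polynomial.coeff_zero]
    by_cases h1 : 1 ≤ K
    · rw [if_pos h1, Finset.sum_eq_single 1 hzero1
        (fun h2 => absurd (Finset.mem_range.2 (by omega)) h2), Polynomial.coeff_C_mul, pow_one]
      rcases Nat.eq_zero_or_pos (d * n) with h2 | h2
      · have hd : d = 0 := (mul_eq_zero.1 h2).resolve_right (by have := hφ.n1; omega)
        subst hd
        obtain ⟨e, he⟩ := H.hX.zero m h hh
        rw [he, Derivation.map_algebraMap, map_zero, mul_zero, Polynomial.coeff_zero,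
          Polynomial.coeff_zero]
      · obtain ⟨j, hj⟩ := Nat.exists_eq_succ_of_ne_zero h2.ne'
        rw [hj, Polynomial.coeff_X_mul]
        rfl
    · rw [if_neg h1, zero_mul]
      refine Finset.sum_eq_zero fun k hk => hzero1 k hk ?_
      have := Finset.mem_range.1 hk
      omega

/-- **Transport.** A tangent vector of weight `χ` at the upper end is the value of a global field
of weight `χ`, up to the defect: the value of `X E`, where `E` is the field of weight `χ + a`; the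
defect is zero if `E` is not zero at the upper end. -/
theorem transport (H : H63X.Hyp 𝒜) {y y' : FP 𝒜} {a : Fin r → ℤ} {n : ℕ}
    {φ : R →ₐ[ℂ] Polynomial ℂ} (hφ : Curve y y' a n φ) {χ : Fin r → ℤ}
    (hχ : ∀ k : ℕ, χ + k • a ≠ 0) (hreal : Lf 𝒜 y χ) {E : ℕ → Derivation ℂ R R}
    (hE : ∀ k, H93.IsHField 𝒜 (χ + k • a) (E k))
    (hc : ∀ k : ℕ, 1 ≤ k → y.Pi (χ + k • a) → ∀ t : R →ₗ[ℂ] ℂ, IsTangent y.q t →
      HasWeight 𝒜 y.ν (χ + k • a) t → ∃ b : ℂ, ∀ x, t x = b * y.q (E k x))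
    (hE' : ∀ k : ℕ, 2 ≤ k → y.Pi (χ + k • a) → ∃ x, y'.q (E k x) ≠ 0)
    {t : R →ₗ[ℂ] ℂ} (ht : IsTangent y'.q t) (htw : HasWeight 𝒜 y'.ν χ t) :
    ∃ D : Derivation ℂ R R, H93.IsHField 𝒜 χ D ∧ ∃ c : ℂ,
      ((∃ x, y'.q (E 1 x) ≠ 0) → c = 0) ∧ (¬ y.Pi (χ + a) → c = 0) ∧
      ∀ d m, ∀ h ∈ 𝒜 (d, m), t h = y'.q (D h) + c * (φ (E 1 h)).coeff (d * n - 1) := by
  classical
  obtain ⟨D, hD, c, hc1, hc2⟩ := transport_aux H hφ hχ hreal
    (E := fun k => if y.Pi (χ + k • a) then E k else 0)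
    (fun k => by
      by_cases h : y.Pi (χ + k • a)
      · simp only [if_pos h]; exact hE k
      · simp only [if_neg h]
        intro d m x _
        exact Submodule.zero_mem _)
    (fun k hk t ht htw => by
      by_cases h : y.Pi (χ + k • a)
      · simp only [if_pos h]; exact hc k hk h t ht htw
      · refine ⟨0, fun x => ?_⟩
        rw [zero_mul]
        by_contra hne
        exact h (tangentWeight_of_ne y.fix (hχ k) ht htw (fun h0 => hne (by rw [h0]; rfl))))
    (fun k hk => by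
      by_cases h : y.Pi (χ + k • a)
      · right
        simp only [if_pos h]
        exact hE' k hk h
      · left
        simp only [if_neg h])
    ht htw
  by_cases h : y.Pi (χ + a)
  · simp only [one_smul, if_pos h] at hc1 hc2
    exact ⟨D, hD, c, hc1, fun h' => absurd h h', hc2⟩
  · simp only [one_smul, if_neg h] at hc1 hc2
    refine ⟨D, hD, 0, fun _ => rfl, fun _ => rfl, fun d m x hx => ?_⟩
    rw [hc2 d m x hx, Derivation.zero_apply, map_zero, Polynomial.coeff_zero, mul_zero, zero_mul]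

end Vale.Agent.P280.H143
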