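import Vale.Agent.P280.H143.Cross
import Vale.Agent.P280.H60.Sgn

/-! P280, T7, helper143: crossing a wall with one defect. -/

open DirectSum Vale.Agent.P280.T Vale.Agent.P280.H127

namespace Vale.Agent.P280.H143

open Vale.Agent.P280.N Vale.Agent.P280.H490 Vale.Agent.P280.N.H989 Vale.Agent.P280.H60

variable {r : ℕ} {R : Type} [CommRing R] [IsDomain R] [Algebra ℂ R]
  {𝒜 : ℕ × (Fin r → ℤ) → Submodule ℂ R} [GradedAlgebra 𝒜]

/-- The field of a vertex. -/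
theorem exists_vf (H : H63X.Hyp 𝒜) {v : Fin r → ℤ} (hv : Vx 𝒜 v) :
    ∃ E : Derivation ℂ R R, H93.IsHField 𝒜 v E ∧ (∀ y : FP 𝒜, y.Pi v → ∃ x, y.q (E x) ≠ 0) ∧
      ∀ D : Derivation ℂ R R, H93.IsHField 𝒜 v D → ∃ k : ℂ, ∀ x, D x = k • E x := by
  obtain ⟨E, -, h1, -, h2, -, -, -, h3, -, h4⟩ := H63X.vertex_fields H hv
  obtain ⟨E', rfl⟩ := Glob.exists_der h1
  refine ⟨E', h2.isHField, fun y hy => ?_, fun D hD => ?_⟩
  · by_contra hcon
    push Not at hcon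
    exact h3 y hy (not_valV_iff.2 hcon)
  · obtain ⟨k, hk⟩ := h4 _ (toVF_glob D) (hv_toVF hD)
    refine ⟨k, fun x => ?_⟩
    have h5 := congrArg (fun G : VF R => G (iK x)) hk
    simp only [Derivation.smul_apply, toVF_iK] at h5
    rw [← iK_smul] at h5
    exact iK_inj h5

/-- Tangent vectors of a vertex weight are multiples of the value of the field. -/
theorem vx_mul (H : H63X.Hyp 𝒜) {v : Fin r → ℤ} (hv : Vx 𝒜 v) {E : Derivation ℂ R R}
    (hE : H93.IsHField 𝒜 v E) {y : FP 𝒜} (hy : y.Pi v) (hne : ∃ x, y.q (E x) ≠ 0)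
    {t : R →ₗ[ℂ] ℂ} (ht : IsTangent y.q t) (htw : HasWeight 𝒜 y.ν v t) :
    ∃ b : ℂ, ∀ x, t x = b * y.q (E x) := by
  obtain ⟨c, c', hc, hcc⟩ := H.mult y _ hv hy t _ ht htw
    (H224.isTangent_value y.q E) (H224.hasWeight_value y.fix hE)
  obtain ⟨x0, hx0⟩ := hne
  by_cases hc0 : c = 0
  · exfalso
    have h2 := hcc x0
    rw [hc0, zero_mul, zero_add] at h2
    rcases hc with h3 | h3
    · exact h3 hc0
    · exact hx0 ((mul_eq_zero.1 h2).resolve_left h3)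
  · refine ⟨-(c' / c), fun x => ?_⟩
    have h2 := hcc x
    change c * t x + c' * y.q (E x) = 0 at h2
    field_simp
    linear_combination h2

theorem lf_vx (H : H63X.Hyp 𝒜) {v : Fin r → ℤ} (hv : Vx 𝒜 v) (y : FP 𝒜) : Lf 𝒜 y v := by
  by_cases hy : y.Pi v
  · obtain ⟨E, hE, h1, -⟩ := exists_vf H hv
    intro t ht htw
    obtain ⟨b, hb⟩ := vx_mul H hv hE hy (h1 y hy) ht htw
    refine ⟨b • E, fun d m x hx => Submodule.smul_mem _ _ (hE d m x hx), fun x => ?_⟩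
    rw [Derivation.smul_apply, map_smul, smul_eq_mul, hb]
  · exact lf_of_not_pi y hy

/-- **(UP1).** The defect is a vertex which is a tangent weight at the upper end. -/
theorem up_one (H : H63X.Hyp 𝒜) (z : FP 𝒜) {ψ χ : Fin r → ℤ} (hψ : z.Pi ψ)
    (hχ : ∀ k : ℕ, χ + k • -ψ ≠ 0) (hvx : Vx 𝒜 (χ - ψ)) (hv : z.Pi (χ - ψ))
    (h2 : ∀ (y : FP 𝒜) (k : ℕ), 2 ≤ k → ¬ y.Pi (χ + k • -ψ))
    (hlow : ∀ (y : FP 𝒜) (n : ℕ), 1 ≤ n → y.ν = z.ν + n • ψ → y.Pi (-ψ) → Lf 𝒜 y χ) :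
    Lf 𝒜 z χ := by
  obtain ⟨y, n, f, hf⟩ := exists_curve_pi H z hψ
  obtain ⟨f', hf', -⟩ := H63X.exists_rev H hf
  refine lf_step H hf' hχ (hlow y n hf.n1 hf.nu hf.ya') fun k hk hpi => ?_
  have hk1 : k = 1 := by
    by_contra hne
    exact h2 y k (by omega) hpi
  subst hk1
  rw [one_smul, ← sub_eq_add_neg] at hpi ⊢
  obtain ⟨E, hE, h1, -⟩ := exists_vf H hvx
  exact ⟨E, hE, h1 z hv, fun t ht htw => vx_mul H hvx hE hpi (h1 y hpi) ht htw⟩

/-- **(UP2).** The defect is a vertex and `ψ` has multiplicity at least two at the upper end. -/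
theorem up_two (H : H63X.Hyp 𝒜) (z : FP 𝒜) {ψ χ : Fin r → ℤ} (hψ : ψ ≠ 0)
    (hvx : Vx 𝒜 (χ - ψ)) (hm : ¬ One 𝒜 z ψ)
    (h2 : ∀ (y : FP 𝒜) (k : ℕ), 2 ≤ k → χ + k • -ψ ≠ 0 ∧ ¬ y.Pi (χ + k • -ψ))
    (hlow : ∀ (y : FP 𝒜) (n : ℕ), 1 ≤ n → y.ν = z.ν + n • ψ → y.Pi (-ψ) → Lf 𝒜 y χ) :
    Lf 𝒜 z χ := by
  obtain ⟨E, hE, h1, hun⟩ := exists_vf H hvx
  -- the decomposition for each direction
  have hdec : ∀ τ : R →ₗ[ℂ] ℂ, IsTangent z.q τ → HasWeight 𝒜 z.ν ψ τ → τ ≠ 0 →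
      ∀ t : R →ₗ[ℂ] ℂ, IsTangent z.q t → HasWeight 𝒜 z.ν χ t →
      ∃ (D : Derivation ℂ R R) (k : ℂ), H93.IsHField 𝒜 χ D ∧ ∀ x, t x = z.q (D x) + k * τ (E x) := by
    intro τ hτ hτw hτ0 t ht htw
    obtain ⟨D, D', hD, hD', -, hh⟩ := f2_dir H z hψ hτ hτw hτ0 (χ := χ) (fun y n hn hν hpi => ⟨by
      intro k hk
      rcases Nat.lt_or_ge k 2 with h | h
      · interval_cases k
        · rw [zero_smul, add_zero]
          exact hlow y n hn (by rw [hν]; abel) hpi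
        · rw [one_smul, ← sub_eq_add_neg]
          exact lf_vx H hvx y
      · exact absurd hk (h2 y k h).2, fun k hk => h2 y k hk⟩) ht htw
    obtain ⟨k, hk⟩ := hun D' hD'
    refine ⟨D, k, hD, fun x => ?_⟩
    rw [hh, hk, map_smul, smul_eq_mul]
  unfold H60.One at hm
  push Not at hm
  obtain ⟨v1, v2, hv1, hw1, hv2, hw2, hind⟩ := hm
  have hne : ∀ c c' : ℂ, (c ≠ 0 ∨ c' ≠ 0) → c • v1 + c' • v2 ≠ 0 := by
    intro c c' hc h0
    obtain ⟨h, hh⟩ := hind c c' hc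
    exact hh (by
      have := LinearMap.congr_fun h0 h
      simpa using this)
  have hv10 : v1 ≠ 0 := by
    have := hne 1 0 (Or.inl one_ne_zero)
    simpa using this
  have hv20 : v2 ≠ 0 := by
    have := hne 0 1 (Or.inr one_ne_zero)
    simpa using this
  intro t ht htw
  obtain ⟨D1, k1, hD1, h3⟩ := hdec v1 hv1 hw1 hv10 t ht htw
  obtain ⟨D2, k2, hD2, h4⟩ := hdec v2 hv2 hw2 hv20 t ht htw
  by_cases hk1 : k1 = 0
  · exact ⟨D1, hD1, fun x => by rw [h3, hk1, zero_mul, add_zero]⟩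
  -- the difference
  have hτ : IsTangent z.q (k1 • v1 + (-k2) • v2) := by
    intro a b
    simp only [LinearMap.add_apply, LinearMap.smul_apply, smul_eq_mul]
    rw [hv1, hv2]
    ring
  have hτw : HasWeight 𝒜 z.ν ψ (k1 • v1 + (-k2) • v2) := by
    intro d m h hh hne
    by_cases h5 : v1 h = 0
    · by_cases h6 : v2 h = 0
      · exfalso
        apply hne
        simp [h5, h6]
      · exact hw2 d m h hh h6
    · exact hw1 d m h hh h5
  obtain ⟨D3, k3, hD3, h5⟩ := hdec _ hτ hτw (hne k1 (-k2) (Or.inl hk1)) t ht htw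
  refine ⟨D3 + k3 • (D2 - D1), ?_, fun x => ?_⟩
  · intro d m h hh
    rw [Derivation.add_apply, Derivation.smul_apply, Derivation.sub_apply]
    exact Submodule.add_mem _ (hD3 d m h hh)
      (Submodule.smul_mem _ _ (Submodule.sub_mem _ (hD2 d m h hh) (hD1 d m h hh)))
  · have e3 := h3 x
    have e4 := h4 x
    have e5 := h5 x
    simp only [LinearMap.add_apply, LinearMap.smul_apply, smul_eq_mul] at e5
    rw [Derivation.add_apply, Derivation.smul_apply, Derivation.sub_apply, map_add, map_smul,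
      map_sub, smul_eq_mul]
    linear_combination -e5 - k3 * e4 + k3 * e3

/-- **Crossing, induction principle**, second form: in the step the property may be assumed at all
points `y` with `y.ν = y'.ν + n w`, `y.Pi (-w)`. -/
theorem cross_gen2 (H : H63X.Hyp 𝒜) {c φ : (Fin r → ℤ) →+ ℤ} (hc : ∀ ω, Wt 𝒜 ω → c ω ≠ 0)
    {Q : FP 𝒜 → Prop}
    (hbase : ∀ p : FP 𝒜, (∀ ψ, p.Pi ψ → 0 < φ ψ ∨ (φ ψ = 0 ∧ 0 < c ψ)) → Q p)
    (hstep : ∀ (z : FP 𝒜) (w : Fin r → ℤ), z.Pi w → 0 < c w → φ w < 0 →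
      Pos ((-φ w) • c + (c w) • φ) z →
      (∀ (y : FP 𝒜) (n : ℕ), 1 ≤ n → y.ν = z.ν + n • w → Q y) → Q z) :
    ∀ p : FP 𝒜, Pos c p → Q p := by
  obtain ⟨K, hK⟩ := nu_bd H φ
  have hv : ∀ (a b : ℤ) ψ, (a • c + b • φ) ψ = a * c ψ + b * φ ψ := fun a b ψ => by
    rw [AddMonoidHom.add_apply, AddMonoidHom.smul_apply, AddMonoidHom.smul_apply, smul_eq_mul,
      smul_eq_mul]
  have key : ∀ (m : ℕ) (y : FP 𝒜), (φ y.ν + K).toNat ≤ m →
      (∃ a b : ℤ, 0 < a ∧ 0 ≤ b ∧ Pos (a • c + b • φ) y) → Q y := by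
    intro m
    induction m with
    | zero =>
      rintro y hm ⟨a, b, ha, hb, hpos⟩
      by_cases hall : ∀ ψ, y.Pi ψ → 0 < φ ψ ∨ (φ ψ = 0 ∧ 0 < c ψ)
      · exact hbase y hall
      · exfalso
        push Not at hall
        obtain ⟨ψ, hψ, h1, h2⟩ := hall
        have h3 := hpos ψ hψ
        rw [hv] at h3
        have h4 := hc ψ ⟨y, hψ⟩
        have h5 : φ ψ < 0 := by
          rcases h1.lt_or_eq with h5 | h5
          · exact h5
          · have h6 := h2 h5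
            rw [h5, mul_zero, add_zero] at h3
            have : c ψ < 0 := lt_of_le_of_ne h6 h4
            nlinarith
        obtain ⟨y1, n, f, hf⟩ := exists_curve_pi H y hψ
        have h6 := hK y1
        have h7 := hK y
        rw [hf.nu, map_add, map_nsmul, nsmul_eq_mul] at h6
        have h8 : (1 : ℤ) ≤ n := by exact_mod_cast hf.n1
        have h9 : φ y.ν + K = 0 := by omega
        nlinarith
    | succ m ih =>
      rintro y hm ⟨a, b, ha, hb, hpos⟩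
      by_cases hall : ∀ ψ, y.Pi ψ → 0 < φ ψ ∨ (φ ψ = 0 ∧ 0 < c ψ)
      · exact hbase y hall
      push Not at hall
      have hneg : ∀ ψ, y.Pi ψ → φ ψ < 0 → 0 < c ψ := by
        intro ψ hψ h1
        have h3 := hpos ψ hψ
        rw [hv] at h3
        rcases lt_trichotomy (c ψ) 0 with h4 | h4 | h4
        · nlinarith
        · exact absurd h4 (hc ψ ⟨y, hψ⟩)
        · exact h4
      obtain ⟨ψ0, hψ0, hφ0⟩ : ∃ ψ, y.Pi ψ ∧ φ ψ < 0 := by
        obtain ⟨ψ, hψ, h1, h2⟩ := hall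
        refine ⟨ψ, hψ, ?_⟩
        rcases h1.lt_or_eq with h5 | h5
        · exact h5
        · exfalso
          have h6 := h2 h5
          have h3 := hpos ψ hψ
          rw [hv, h5, mul_zero, add_zero] at h3
          have : c ψ < 0 := lt_of_le_of_ne h6 (hc ψ ⟨y, hψ⟩)
          nlinarith
      have hfin : {ψ | y.Pi ψ ∧ φ ψ < 0}.Finite :=
        (H63X.pi_finite H y).subset fun ψ hψ => hψ.1
      obtain ⟨w, ⟨hw, hwφ⟩, hmin⟩ := Set.exists_min_image {ψ | y.Pi ψ ∧ φ ψ < 0}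
        (fun ψ => (c ψ : ℚ) / (-(φ ψ : ℚ))) hfin ⟨ψ0, hψ0, hφ0⟩
      have hcw := hneg w hw hwφ
      have hmin' : ∀ ψ, y.Pi ψ → φ ψ < 0 → -φ ψ * c w ≤ c ψ * -φ w := by
        intro ψ hψ h1
        have h2 := hmin ψ ⟨hψ, h1⟩
        have e1 : (0 : ℚ) < -(φ w : ℚ) := by
          have : (φ w : ℚ) < 0 := by exact_mod_cast hwφ
          linarith
        have e2 : (0 : ℚ) < -(φ ψ : ℚ) := by
          have : (φ ψ : ℚ) < 0 := by exact_mod_cast h1
          linarith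
        rw [div_le_div_iff₀ e1 e2] at h2
        have h3 : ((-φ ψ * c w : ℤ) : ℚ) ≤ ((c ψ * -φ w : ℤ) : ℚ) := by
          push_cast
          linarith
        exact_mod_cast h3
      have hpos' : Pos ((-φ w) • c + (c w) • φ) y := by
        intro ψ hψ
        rw [hv]
        by_cases h1 : φ ψ < 0
        · have := hmin' ψ hψ h1
          linarith
        · push Not at h1
          by_cases h2 : 0 ≤ c ψ
          · nlinarith
          · push Not at h2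
            have h3 := hpos ψ hψ
            have h4 := hpos w hw
            rw [hv] at h3 h4
            have h5 : a * (-φ w * c ψ + c w * φ ψ) = -φ w * (a * c ψ + b * φ ψ) +
                φ ψ * (a * c w + b * φ w) := by ring
            have h6 : 0 ≤ a * (-φ w * c ψ + c w * φ ψ) := by
              rw [h5]
              have e1 : 0 ≤ -φ w * (a * c ψ + b * φ ψ) := mul_nonneg (by linarith) h3
              have e2 : 0 ≤ φ ψ * (a * c w + b * φ w) := mul_nonneg h1 h4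
              linarith
            exact nonneg_of_mul_nonneg_right h6 ha
      refine hstep y w hw hcw hwφ hpos' fun y1 n hn hν => ih y1 ?_ ⟨-φ w, c w, by linarith,
        hcw.le, ?_⟩
      · have h6 : φ y1.ν < φ y.ν := by
          rw [hν, map_add, map_nsmul, nsmul_eq_mul]
          have h8 : (1 : ℤ) ≤ n := by exact_mod_cast hn
          nlinarith
        have h7 := hK y
        have h8 := hK y1
        omega
      · refine (H63X.low_iff H _ y1).1 fun d m h hh hne => ?_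
        have h1 := (H63X.low_iff H _ y).2 hpos' d m h hh hne
        have h2 : ((-φ w) • c + (c w) • φ) y1.ν = ((-φ w) • c + (c w) • φ) y.ν := by
          rw [hν, map_add, map_nsmul, hv _ _ w]
          rw [show -φ w * c w + c w * φ w = 0 by ring, smul_zero, add_zero]
        rwa [h2]
  intro p hp
  refine key _ p le_rfl ⟨1, 0, one_pos, le_rfl, ?_⟩
  rwa [one_smul, zero_smul, add_zero]

/-- **Crossing with one defect.** -/
theorem cross_up (H : H63X.Hyp 𝒜) {χ : Fin r → ℤ} (hχ : χ ≠ 0) {c φ : (Fin r → ℤ) →+ ℤ}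
    (hc : ∀ ω, Wt 𝒜 ω → c ω ≠ 0)
    (hno : ∀ (z : FP 𝒜) (w : Fin r → ℤ), z.Pi w → 0 < c w → φ w < 0 →
      Pos ((-φ w) • c + (c w) • φ) z →
      (∀ k : ℕ, 1 ≤ k → χ + k • -w ≠ 0 ∧ ¬ Wt 𝒜 (χ + k • -w)) ∨
      (Vx 𝒜 (χ - w) ∧ (∀ k : ℕ, 2 ≤ k → χ + k • -w ≠ 0 ∧ ¬ Wt 𝒜 (χ + k • -w)) ∧
        (z.Pi (χ - w) ∨ ¬ One 𝒜 z w)) ∨ Lf 𝒜 z χ)
    (hbase : ∀ p : FP 𝒜, (∀ ψ, p.Pi ψ → 0 < φ ψ ∨ (φ ψ = 0 ∧ 0 < c ψ)) → Lf 𝒜 p χ) :
    ∀ p : FP 𝒜, Pos c p → Lf 𝒜 p χ := by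
  refine cross_gen2 H hc hbase fun z w hw hcw hφw hpos hy => ?_
  have hk0 : ∀ (P : ∀ k : ℕ, 1 ≤ k → χ + k • -w ≠ 0) (k : ℕ), χ + k • -w ≠ 0 := by
    intro P k
    rcases Nat.eq_zero_or_pos k with h | h
    · subst h
      rwa [zero_smul, add_zero]
    · exact P k h
  rcases hno z w hw hcw hφw hpos with h | ⟨hvx, h2, h⟩ | h
  · obtain ⟨y, n, f, hf⟩ := exists_curve_pi H z hw
    obtain ⟨f', hf', -⟩ := H63X.exists_rev H hf
    exact lf_step' H hf' (hk0 fun k hk => (h k hk).1) (fun k hk hpi => (h k hk).2 ⟨y, hpi⟩)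
      (hy y n hf.n1 hf.nu)
  · have hvx0 : χ - w ≠ 0 := by
      obtain ⟨-, l, hl, -⟩ := hvx
      intro h0
      rw [h0, map_zero] at hl
      exact lt_irrefl _ hl
    have hall : ∀ k : ℕ, 1 ≤ k → χ + k • -w ≠ 0 := by
      intro k hk
      rcases Nat.lt_or_ge k 2 with h3 | h3
      · obtain rfl : k = 1 := by omega
        rwa [one_smul, ← sub_eq_add_neg]
      · exact (h2 k h3).1
    rcases h with h | h
    · exact up_one H z hw (hk0 hall) hvx h (fun y k hk hpi => (h2 k hk).2 ⟨y, hpi⟩)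
        (fun y n hn hν _ => hy y n hn hν)
    · exact up_two H z (H63X.ne_zero_of_pi H hw) hvx h
        (fun y k hk => ⟨(h2 k hk).1, fun hpi => (h2 k hk).2 ⟨y, hpi⟩⟩)
        (fun y n hn hν _ => hy y n hn hν)
  · exact h

end Vale.Agent.P280.H143
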