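import Vale.Agent.P280.H143.F2
import Vale.Agent.P280.N.C05
import Vale.Agent.P280.H475.DvrA

/-! P280, T7, helper143: lemma (X) of END, general algebra. -/

open DirectSum Vale.Agent.P280.T Vale.Agent.P280.H127

namespace Vale.Agent.P280.H143

open Vale.Agent.P280.N

section
variable {V : Type*} [AddCommGroup V] [Module ℂ V] {e f h : V →ₗ[ℂ] V}

/-- Casimir recursion: a vector of weight `w ≥ 0` becomes primitive after adding something of the
form `f (e s)`. -/
theorem exists_prim (h1 : ∀ x, e (f x) - f (e x) = h x)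
    (h2 : ∀ x, h (e x) - e (h x) = (2 : ℂ) • e x) {w : ℕ} {S : Submodule ℂ V}
    (hS : ∀ s ∈ S, f (e s) ∈ S) (hw : ∀ s ∈ S, h s = (w : ℂ) • s) (j : ℕ) :
    ∀ x ∈ S, e^[j + 1] x = 0 → ∃ s ∈ S, e (x + f (e s)) = 0 := by
  induction j with
  | zero =>
    intro x hx h0
    refine ⟨0, Submodule.zero_mem _, ?_⟩
    simpa using h0
  | succ j ih =>
    intro x hx h0
    set c : ℂ := ((j : ℂ) + 1) * ((w : ℂ) + 2 + j) with hc
    have hc0 : c ≠ 0 := by
      rw [hc]
      refine mul_ne_zero ?_ ?_
      · exact_mod_cast Nat.succ_ne_zero j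
      · exact_mod_cast (by omega : w + 2 + j ≠ 0)
    have hex : h (e x) = ((w : ℂ) + 2) • e x := by
      have h3 := h2 x
      rw [hw x hx, map_smul, sub_eq_iff_eq_add] at h3
      rw [h3, ← add_smul, add_comm]
    have h4 := ladder_one (N := 1) h1 (by simpa using h2) hex j
    rw [← Function.iterate_succ_apply e (j + 1) x, h0, map_zero, zero_add,
      ← Function.iterate_succ_apply e j x, one_mul, ← hc] at h4
    obtain ⟨s, hs, hs'⟩ := ih (x - c⁻¹ • f (e x)) (Submodule.sub_mem _ hx
      (Submodule.smul_mem _ _ (hS x hx))) (by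
        have h5 : ∀ (k : ℕ) (a b : V), e^[k] (a - c⁻¹ • b) = e^[k] a - c⁻¹ • e^[k] b := by
          intro k
          induction k with
          | zero => intro a b; rfl
          | succ k ihk =>
            intro a b
            rw [Function.iterate_succ_apply', Function.iterate_succ_apply',
              Function.iterate_succ_apply', ihk, map_sub, map_smul]
        rw [h5, h4, smul_smul, inv_mul_cancel₀ hc0, one_smul, sub_self])
    refine ⟨s - c⁻¹ • x, Submodule.sub_mem _ hs (Submodule.smul_mem _ _ hx), ?_⟩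
    rw [← hs']
    congr 1
    rw [map_sub, map_sub, map_smul, map_smul]
    abel

/-- A primitive vector of weight `n` is killed by `f ^ (n + 1)`. -/
theorem prim_pow_zero (h1 : ∀ x, e (f x) - f (e x) = h x)
    (h3 : ∀ x, h (f x) - f (h x) = (-2 : ℂ) • f x) {n : ℕ} {x : V}
    (hx : h x = (n : ℂ) • x) (he : e x = 0) (hf : ∃ k : ℕ, f^[k] x = 0) :
    f^[n + 1] x = 0 := by
  have hwt : ∀ k : ℕ, h (f^[k] x) = ((n : ℂ) - 2 * k) • f^[k] x := by
    intro k
    have := ladder_wt (e := f) (h := h) (c := -2) h3 hx k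
    rw [this]
    congr 1
    ring
  have hek : ∀ k : ℕ, e (f^[k + 1] x) = (((k : ℂ) + 1) * (n - k)) • f^[k] x := by
    intro k
    induction k with
    | zero =>
      have h4 := h1 x
      rw [he, map_zero, sub_zero, hx] at h4
      simpa using h4
    | succ k ih =>
      have h4 := h1 (f^[k + 1] x)
      rw [ih, hwt, map_smul, ← Function.iterate_succ_apply' f k x,
        ← Function.iterate_succ_apply' f (k + 1) x, sub_eq_iff_eq_add, ← add_smul] at h4
      rw [h4]
      congr 1
      push_cast
      ring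
  by_contra hne
  obtain ⟨k, hk⟩ := hf
  have key : ∀ i : ℕ, f^[n + 1 + i] x ≠ 0 := by
    intro i
    induction i with
    | zero => exact hne
    | succ i ih =>
      intro h0
      have h4 := hek (n + 1 + i)
      rw [show n + 1 + i + 1 = n + 1 + (i + 1) by ring, h0, map_zero] at h4
      rcases smul_eq_zero.1 h4.symm with h5 | h5
      · rcases mul_eq_zero.1 h5 with h6 | h6
        · exact absurd h6 (by exact_mod_cast Nat.succ_ne_zero (n + 1 + i))
        · have h7 : (n : ℂ) = ((n + 1 + i : ℕ) : ℂ) := sub_eq_zero.1 h6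
          have h8 : n = n + 1 + i := by exact_mod_cast h7
          omega
      · exact ih h5
  apply key k
  rw [Function.iterate_add_apply, ← Function.iterate_add_apply, add_comm (n + 1) k,
    Function.iterate_add_apply]
  have hz : ∀ m : ℕ, f^[m] (0 : V) = 0 := fun m => iterate_zero' f m
  rw [← Function.iterate_add_apply, add_comm, Function.iterate_add_apply, hk, hz]

end

section
variable {R : Type} [CommRing R] [Algebra ℂ R]

/-- Products of elements killed by powers of a derivation. -/
theorem iter_mul (E : Derivation ℂ R R) (n : ℕ) : ∀ (i j : ℕ) (a b : R), i + j ≤ n + 1 →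
    (E : R →ₗ[ℂ] R)^[i] a = 0 → (E : R →ₗ[ℂ] R)^[j] b = 0 → (E : R →ₗ[ℂ] R)^[n] (a * b) = 0 := by
  induction n with
  | zero =>
    intro i j a b hij ha hb
    rcases Nat.eq_zero_or_pos i with h | h
    · subst h
      rw [Function.iterate_zero, id_eq] at ha ⊢
      rw [ha, zero_mul]
    · have hj : j = 0 := by omega
      subst hj
      rw [Function.iterate_zero, id_eq] at hb ⊢
      rw [hb, mul_zero]
  | succ n ih =>
    intro i j a b hij ha hb
    have hadd : ∀ (m : ℕ) (x y : R), (E : R →ₗ[ℂ] R)^[m] (x + y) =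
        (E : R →ₗ[ℂ] R)^[m] x + (E : R →ₗ[ℂ] R)^[m] y := by
      intro m
      induction m with
      | zero => intro x y; rfl
      | succ m ihm =>
        intro x y
        rw [Function.iterate_succ_apply', Function.iterate_succ_apply',
          Function.iterate_succ_apply', ihm, map_add]
    rw [Function.iterate_succ_apply]
    change (E : R →ₗ[ℂ] R)^[n] (E (a * b)) = 0
    rw [Derivation.leibniz, smul_eq_mul, smul_eq_mul, hadd]
    have hz : ∀ m : ℕ, (E : R →ₗ[ℂ] R)^[m] (0 : R) = 0 := fun m => iterate_zero' _ m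
    rcases Nat.eq_zero_or_pos i with h | h
    · subst h
      rw [Function.iterate_zero, id_eq] at ha
      rw [ha, zero_mul, map_zero, mul_zero, hz, add_zero]
    · rcases Nat.eq_zero_or_pos j with h' | h'
      · subst h'
        rw [Function.iterate_zero, id_eq] at hb
        rw [hb, zero_mul, map_zero, mul_zero, hz, add_zero]
      · obtain ⟨i, rfl⟩ := Nat.exists_eq_succ_of_ne_zero h.ne'
        obtain ⟨j, rfl⟩ := Nat.exists_eq_succ_of_ne_zero h'.ne'
        have e1 : (E : R →ₗ[ℂ] R)^[n] (a * E b) = 0 :=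
          ih (i + 1) j a (E b) (by omega) ha (by
            rw [Nat.succ_eq_add_one, Function.iterate_succ_apply] at hb
            exact hb)
        have e2 : (E : R →ₗ[ℂ] R)^[n] (b * E a) = 0 :=
          ih (j + 1) i b (E a) (by omega) hb (by
            rw [Nat.succ_eq_add_one, Function.iterate_succ_apply] at ha
            exact ha)
        rw [e1, e2, add_zero]

/-- A derivation which is nilpotent on generators is locally nilpotent. -/
theorem loc_nil {E : Derivation ℂ R R} {S : Set R} (hS : Algebra.adjoin ℂ S = ⊤)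
    (h : ∀ s ∈ S, ∃ k : ℕ, (E : R →ₗ[ℂ] R)^[k] s = 0) (x : R) :
    ∃ k : ℕ, (E : R →ₗ[ℂ] R)^[k] x = 0 := by
  have hx : x ∈ Algebra.adjoin ℂ S := by rw [hS]; trivial
  have hadd : ∀ (m : ℕ) (x y : R), (E : R →ₗ[ℂ] R)^[m] (x + y) =
      (E : R →ₗ[ℂ] R)^[m] x + (E : R →ₗ[ℂ] R)^[m] y := by
    intro m
    induction m with
    | zero => intro x y; rfl
    | succ m ihm =>
      intro x y
      rw [Function.iterate_succ_apply', Function.iterate_succ_apply',
        Function.iterate_succ_apply', ihm, map_add]
  have hz : ∀ m : ℕ, (E : R →ₗ[ℂ] R)^[m] (0 : R) = 0 := fun m => iterate_zero' _ m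
  have hup : ∀ (m k : ℕ) (x : R), (E : R →ₗ[ℂ] R)^[k] x = 0 →
      (E : R →ₗ[ℂ] R)^[m + k] x = 0 := fun m k x hk => by
    rw [Function.iterate_add_apply, hk, hz]
  induction hx using Algebra.adjoin_induction with
  | mem x hx => exact h x hx
  | algebraMap c =>
    refine ⟨1, ?_⟩
    rw [Function.iterate_one]
    exact Derivation.map_algebraMap E c
  | add x y _ _ hx hy =>
    obtain ⟨i, hi⟩ := hx
    obtain ⟨j, hj⟩ := hy
    refine ⟨i + j, ?_⟩
    rw [hadd, hup i j y hj, add_comm i j, hup j i x hi, add_zero]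
  | mul x y _ _ hx hy =>
    obtain ⟨i, hi⟩ := hx
    obtain ⟨j, hj⟩ := hy
    exact ⟨i + j, iter_mul E (i + j) i j x y (by omega) hi hj⟩

/-- A derivation which kills elements generating a maximal ideal modulo its square is zero. -/
theorem der_zero [IsDomain R] [IsNoetherianRing R] {q : R →ₐ[ℂ] ℂ} {S : Set R}
    (hm : mx q ≤ Ideal.span S ⊔ mx q * mx q) (hSm : ∀ s ∈ S, q s = 0) {G : Derivation ℂ R R}
    (hG : ∀ s ∈ S, G s = 0) : ∀ x, G x = 0 := by
  have key : ∀ k : ℕ, ∀ x, G x ∈ mx q ^ k := by
    intro k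
    induction k with
    | zero =>
      intro x
      rw [pow_zero, Ideal.one_eq_top]
      trivial
    | succ k ih =>
      have h1 : ∀ x ∈ mx q * mx q, G x ∈ mx q ^ (k + 1) := by
        intro x hx
        refine Submodule.mul_induction_on hx ?_ ?_
        · intro a ha b hb
          rw [Derivation.leibniz, smul_eq_mul, smul_eq_mul, pow_succ']
          exact Ideal.add_mem _ (Ideal.mul_mem_mul ha (ih b)) (Ideal.mul_mem_mul hb (ih a))
        · intro x y hx hy
          rw [map_add]
          exact Ideal.add_mem _ hx hy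
      have h2 : ∀ x ∈ Ideal.span S, G x ∈ mx q ^ (k + 1) := by
        intro x hx
        refine Submodule.span_induction ?_ ?_ ?_ ?_ hx
        · intro s hs
          rw [hG s hs]
          exact Submodule.zero_mem _
        · rw [map_zero]
          exact Submodule.zero_mem _
        · intro x y _ _ hx hy
          rw [map_add]
          exact Ideal.add_mem _ hx hy
        · intro a x hx1 hx2
          rw [smul_eq_mul, Derivation.leibniz, smul_eq_mul, smul_eq_mul]
          refine Ideal.add_mem _ (Ideal.mul_mem_left _ _ hx2) ?_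
          rw [pow_succ']
          refine Ideal.mul_mem_mul ?_ (ih a)
          refine (Ideal.span_le.2 ?_ : Ideal.span S ≤ mx q) hx1
          intro s hs
          exact mem_mx.mpr (hSm s hs)
      intro x
      have h3 : x = (x - algebraMap ℂ R (q x)) + algebraMap ℂ R (q x) := by ring
      rw [h3, map_add, Derivation.map_algebraMap, add_zero]
      obtain ⟨a, ha, b, hb, hab⟩ := Submodule.mem_sup.1 (hm (sub_q_mem q x))
      rw [← hab, map_add]
      exact Ideal.add_mem _ (h2 a ha) (h1 b hb)
  intro x
  have h4 : G x ∈ ⨅ k : ℕ, mx q ^ k := by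
    rw [Submodule.mem_iInf]
    exact fun k => key k x
  have h5 : mx q ≠ ⊤ := by
    intro h
    have h6 : (1 : R) ∈ mx q := by rw [h]; trivial
    rw [mem_mx, map_one] at h6
    exact one_ne_zero h6
  rw [Ideal.iInf_pow_eq_bot_of_isDomain _ h5] at h4
  exact (Ideal.mem_bot).1 h4

end

end Vale.Agent.P280.H143
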