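import Vale.Agent.P280.H143.X1
import Vale.Agent.P280.H63X.A05

/-! P280, T7, helper143: lemma (X) of END. -/

open DirectSum Vale.Agent.P280.T Vale.Agent.P280.H127

namespace Vale.Agent.P280.H143

open Vale.Agent.P280.N

variable {r : ℕ} {R : Type} [CommRing R] [IsDomain R] [Algebra ℂ R]
  {𝒜 : ℕ × (Fin r → ℤ) → Submodule ℂ R} [GradedAlgebra 𝒜]

omit [IsDomain R] in
/-- An element of the maximal ideal killed by all homogeneous tangent vectors is in its square. -/
theorem mem_sq_of_tangent (hX : IsTorusManifold 𝒜) (z : FP 𝒜) {h : R} (hq : z.q h = 0)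
    (hv : ∀ (ω : Fin r → ℤ) (v : R →ₗ[ℂ] ℂ), IsTangent z.q v → HasWeight 𝒜 z.ν ω v → v h = 0) :
    h ∈ mx z.q * mx z.q := by
  classical
  have := noeth hX
  obtain ⟨n, u, wt, G, hn⟩ := exists_params_T hX z.nv (fix_of_isFixed z.fix)
  obtain ⟨v, hvT, hvu, hvw, -⟩ := G.exists_dual (fix_of_isFixed z.fix) hn.le
  obtain ⟨c, hc⟩ := G.expand (mem_mx.mpr hq)
  have hci : ∀ i, c i = 0 := by
    intro i
    have hw : HasWeight 𝒜 z.ν (wt i) (v i) := weight_iff.mp (hvw i)
    have h1 := Tan.sq (q := z.q) (v := v i) (hvT i) hc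
    rw [map_sub, map_sum, hv (wt i) (v i) (hvT i) hw, zero_sub, neg_eq_zero] at h1
    simp only [map_smul, hvu, smul_eq_mul, mul_ite, mul_one, mul_zero] at h1
    simpa using h1
  have h2 : ∑ i, c i • u i = 0 := Finset.sum_eq_zero fun i _ => by rw [hci i, zero_smul]
  rw [h2, sub_zero, pow_two] at hc
  exact hc

omit [IsDomain R] in
/-- Fields of nonzero weight are locally nilpotent. -/
theorem field_nil (hX : IsTorusManifold 𝒜) {E : Derivation ℂ R R} {χ : Fin r → ℤ} (hχ : χ ≠ 0)
    (hE : H93.IsHField 𝒜 χ E) (x : R) : ∃ k : ℕ, (E : R →ₗ[ℂ] R)^[k] x = 0 := by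
  refine loc_nil hX.gen ?_ x
  rintro a ⟨m, ha⟩
  by_contra hcon
  push Not at hcon
  have hfin := finite_weights hX
  refine Set.infinite_of_injective_forall_mem (f := fun k : ℕ => m - k • χ) ?_ ?_ hfin
  · intro a b hab
    have h1 : a • χ = b • χ := sub_right_injective hab
    exact H490.nsmul_inj hχ h1
  · intro k
    exact ⟨_, iterate_mem_wt hE ha k, hcon k⟩

omit [IsDomain R] in
/-- A derivation of nonzero weight preserves the square of an ideal of a point where it is zero. -/
theorem map_sq {q : R →ₐ[ℂ] ℂ} {E : Derivation ℂ R R} (h0 : ∀ h, q (E h) = 0) {x : R}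
    (hx : x ∈ mx q * mx q) : E x ∈ mx q * mx q := by
  refine Submodule.mul_induction_on hx ?_ ?_
  · intro a ha b hb
    rw [Derivation.leibniz, smul_eq_mul, smul_eq_mul]
    exact Ideal.add_mem _ (Ideal.mul_mem_mul ha (mem_mx.mpr (h0 b)))
      (Ideal.mul_mem_mul hb (mem_mx.mpr (h0 a)))
  · intro x y hx hy
    rw [map_add]
    exact Ideal.add_mem _ hx hy

/-- The eigenvalue of a derivation on an eigenvector. -/
theorem eig {D : R → R} {μ κ : ℂ} {y : R} (hy : y ≠ 0) (hD : ∀ c : ℂ, D (c • y) = (c * μ) • y)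
    {n : ℕ} (hn : (fun x : R => D x - κ • x)^[n] y = 0) : κ = μ := by
  by_contra hne
  have key : ∀ k : ℕ, (fun x : R => D x - κ • x)^[k] y = ((μ - κ) ^ k) • y := by
    intro k
    induction k with
    | zero => simp
    | succ k ih =>
      rw [Function.iterate_succ_apply', ih, hD, smul_smul, ← sub_smul]
      congr 1
      ring
  rw [key n] at hn
  rcases smul_eq_zero.1 hn with h | h
  · exact hne (sub_eq_zero.1 (pow_eq_zero_iff (by
      rintro rfl
      rw [pow_zero] at h
      exact one_ne_zero h) |>.1 h)).symm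
  · exact hy h

end Vale.Agent.P280.H143
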