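import Vale.Agent.P280.H143.X2

/-! P280, T7, helper143: lemma (X) of END. -/

open DirectSum Vale.Agent.P280.T Vale.Agent.P280.H127

namespace Vale.Agent.P280.H143

open Vale.Agent.P280.N

section
variable {R : Type} [CommRing R] [IsDomain R] [Algebra ℂ R]

/-- If `x² F = x'² E + x x' L` for derivations `E`, `F`, `L`, then `(x' / x) E` is a derivation
of the normal ring `R`. -/
theorem exists_quot [IsNoetherianRing R] [IsIntegrallyClosed R] {E F L : Derivation ℂ R R}
    {x x' : R} (hx : x ≠ 0) (hx' : x' ≠ 0)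
    (hG : ∀ y, x ^ 2 * F y = x' ^ 2 * E y + x * x' * L y) :
    ∃ D : Derivation ℂ R R, ∀ y, x * D y = x' * E y := by
  classical
  have hdiv : ∀ y, ∃ w, x * w = x' * E y := by
    intro y
    by_contra hcon
    push Not at hcon
    have hxK : algebraMap R (FractionRing R) x ≠ 0 := fun h =>
      hx ((IsFractionRing.injective R (FractionRing R)) (by rw [h, map_zero]))
    have hxK' : algebraMap R (FractionRing R) x' ≠ 0 := fun h =>
      hx' ((IsFractionRing.injective R (FractionRing R)) (by rw [h, map_zero]))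
    set a : FractionRing R := algebraMap R (FractionRing R) (x' * E y) /
      algebraMap R (FractionRing R) x with ha
    have hna : a ∉ Set.range (algebraMap R (FractionRing R)) := by
      rintro ⟨w, hw⟩
      apply hcon w
      apply IsFractionRing.injective R (FractionRing R)
      rw [map_mul, hw, ha, mul_div_cancel₀ _ hxK]
    obtain ⟨P, hP, hdvr, hs⟩ := H475.exists_dvr hna
    have hle : P.primeCompl ≤ nonZeroDivisors R := P.primeCompl_le_nonZeroDivisors
    have hinj := IsLocalization.injective (Localization.AtPrime P) hle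
    have htot := ValuationRing.dvd_total (algebraMap R (Localization.AtPrime P) x)
      (algebraMap R (Localization.AtPrime P) x')
    have hfrac : ∀ {p p' : R}, algebraMap R (Localization.AtPrime P) p ∣
        algebraMap R (Localization.AtPrime P) p' → ∃ s, s ∉ P ∧ ∃ c, s * p' = p * c := by
      rintro p p' ⟨w, hw⟩
      obtain ⟨c, s, rfl⟩ := IsLocalization.exists_mk'_eq P.primeCompl w
      refine ⟨s, s.2, c, hinj ?_⟩
      rw [map_mul, map_mul, hw]
      have h2 := IsLocalization.mk'_spec (Localization.AtPrime P) c s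
      linear_combination (algebraMap R (Localization.AtPrime P) p) * h2
    rcases htot with h | h
    · obtain ⟨s, hsP, c, hc⟩ := hfrac h
      apply hs (c * E y) s hsP
      rw [ha, div_mul_eq_mul_div, div_eq_iff hxK, ← map_mul, ← map_mul]
      congr 1
      linear_combination (E y) * hc
    · obtain ⟨s, hsP, c, hc⟩ := hfrac h
      apply hs (c * F y - s * L y) s hsP
      rw [ha, div_mul_eq_mul_div, div_eq_iff hxK, ← map_mul, ← map_mul]
      congr 1
      have h3 : x' * (x' * E y * s) = x' * ((c * F y - s * L y) * x) := by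
        linear_combination (-s) * hG y + x * F y * hc
      exact mul_left_cancel₀ hx' h3
  choose Df hDf using hdiv
  refine ⟨Derivation.mk'
    { toFun := Df
      map_add' := fun a b => mul_left_cancel₀ hx (by
        rw [hDf, mul_add, hDf, hDf, map_add]
        ring)
      map_smul' := fun c a => mul_left_cancel₀ hx (by
        rw [hDf, RingHom.id_apply, mul_smul_comm, hDf, Derivation.map_smul, mul_smul_comm]) }
    (fun a b => mul_left_cancel₀ hx ?_), fun y => hDf y⟩
  change x * Df (a * b) = x * (a • Df b + b • Df a)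
  rw [hDf, Derivation.leibniz, smul_eq_mul, smul_eq_mul, smul_eq_mul, smul_eq_mul]
  linear_combination (-a) * hDf b - b * hDf a

end

variable {r : ℕ} {R : Type} [CommRing R] [IsDomain R] [Algebra ℂ R]
  {𝒜 : ℕ × (Fin r → ℤ) → Submodule ℂ R} [GradedAlgebra 𝒜]

/-- **Lemma (X).** `E`, `F` is an `sl₂` of fields of weights `v`, `-v`, zero at `z`; `η` and `η + v`
are tangent weights of multiplicity one at `z` and the other tangent weights at `z` are orthogonal
to `v`. Then there is a linear form which is `1` on `η + v` and zero on all other weights. -/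
theorem phi_trick (hX : IsTorusManifold 𝒜)
    (tor : ∀ D : Derivation ℂ R R, (∀ d m, ∀ h ∈ 𝒜 (d, m), D h ∈ 𝒜 (d, m)) →
      ∃ (α : ℂ) (β : (Fin r → ℤ) →+ ℂ), ∀ d m, ∀ h ∈ 𝒜 (d, m), ∃ n : ℕ,
        (fun x : R => D x - ((d : ℂ) * α + β m) • x)^[n] h = 0)
    (z : FP 𝒜) (hiso : ¬ z.Pi 0) {v η : Fin r → ℤ} {E F : Derivation ℂ R R}
    (hE : H93.IsHField 𝒜 v E) (hF : H93.IsHField 𝒜 (-v) F) {α : ℂ} {b : (Fin r → ℤ) →+ ℂ}
    (hb : b v = 2)
    (hEF : ∀ d m, ∀ h ∈ 𝒜 (d, m), E (F h) - F (E h) = -(((d : ℂ) * α + b m) • h))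
    (hE0 : ∀ h, z.q (E h) = 0) (hF0 : ∀ h, z.q (F h) = 0) (hη : z.Pi η) (hbη : b η = -1)
    (hm : ∀ t t' : R →ₗ[ℂ] ℂ, IsTangent z.q t → HasWeight 𝒜 z.ν η t → IsTangent z.q t' →
      HasWeight 𝒜 z.ν η t' → ∃ c c' : ℂ, (c ≠ 0 ∨ c' ≠ 0) ∧ ∀ h, c * t h + c' * t' h = 0)
    (hm' : ∀ t t' : R →ₗ[ℂ] ℂ, IsTangent z.q t → HasWeight 𝒜 z.ν (η + v) t → IsTangent z.q t' →
      HasWeight 𝒜 z.ν (η + v) t' → ∃ c c' : ℂ, (c ≠ 0 ∨ c' ≠ 0) ∧ ∀ h, c * t h + c' * t' h = 0)
    (hw : ∀ w, z.Pi w → w = η ∨ w = η + v ∨ b w = 0) :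
    ∃ β : (Fin r → ℤ) →+ ℂ, β η = 0 ∧ β (η + v) = 1 ∧ ∀ w, z.Pi w → b w = 0 → β w = 0 := by
  classical
  have := noeth hX
  have := hX.normal
  have hv0 : v ≠ 0 := by
    rintro rfl
    rw [map_zero] at hb
    norm_num at hb
  obtain ⟨f0, N, U, wt, n, k, du, u, hf0, hf1, G, hN, hkinj, hk2, hPi, hcrd, hmx⟩ :=
    H63X.hcoords hX z hiso
  rw [smul_eq_mul] at hmx
  set L : Derivation ℂ R R := ⁅E, F⁆ with hL
  have hLx : ∀ x, L x = E (F x) - F (E x) := fun x => Derivation.commutator_apply x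
  -- the numbers
  have hαν : α + b z.ν = 0 := by
    have h1 := congrArg z.q (hEF 1 z.ν f0 hf0)
    rw [map_sub, hE0, hF0, sub_zero, map_neg, map_smul, hf1, smul_eq_mul, mul_one,
      Nat.cast_one, one_mul] at h1
    exact neg_eq_zero.1 h1.symm
  have hlam : ∀ (d : ℕ) (w : Fin r → ℤ), ∀ x ∈ 𝒜 (d, d • z.ν + w), L x = -(b w • x) := by
    intro d w x hx
    rw [hLx, hEF d _ x hx]
    congr 2
    rw [map_add, map_nsmul, nsmul_eq_mul]
    linear_combination (d : ℂ) * hαν
  -- the sl2 relations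
  let e : R →ₗ[ℂ] R := E
  let f : R →ₗ[ℂ] R := F
  let g : R →ₗ[ℂ] R := L
  have h1 : ∀ x, e (f x) - f (e x) = g x := fun x => (hLx x).symm
  have hgx : ∀ d m, ∀ x ∈ 𝒜 (d, m), g x = -(((d : ℂ) * α + b m) • x) := fun d m x hx => by
    rw [← h1]
    exact hEF d m x hx
  have h2 : ∀ x, g (e x) - e (g x) = (2 : ℂ) • e x := by
    have h3 : g.comp e - e.comp g = (2 : ℂ) • e := by
      apply linearMap_ext_graded 𝒜
      rintro ⟨d, m⟩ x hx
      change g (e x) - e (g x) = (2 : ℂ) • e x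
      rw [hgx d _ (e x) (hE d m x hx), hgx d m x hx, map_neg, map_smul, ← neg_smul, ← neg_smul,
        ← sub_smul]
      congr 1
      rw [map_sub, hb]
      ring
    exact fun x => LinearMap.congr_fun h3 x
  have h3 : ∀ x, g (f x) - f (g x) = (-2 : ℂ) • f x := by
    have h3 : g.comp f - f.comp g = (-2 : ℂ) • f := by
      apply linearMap_ext_graded 𝒜
      rintro ⟨d, m⟩ x hx
      change g (f x) - f (g x) = (-2 : ℂ) • f x
      rw [hgx d _ (f x) (hF d m x hx), hgx d m x hx, map_neg, map_smul, ← neg_smul, ← neg_smul,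
        ← sub_smul]
      congr 1
      rw [map_sub, map_neg, hb]
      ring
    exact fun x => LinearMap.congr_fun h3 x
  have hnilE : ∀ x, ∃ k : ℕ, e^[k] x = 0 := fun x => field_nil hX hv0 hE x
  have hnilF : ∀ x, ∃ k : ℕ, f^[k] x = 0 := fun x => field_nil hX (neg_ne_zero.2 hv0) hF x
  -- `E` sends certain elements to the square of the maximal ideal
  have hEsq : ∀ (d : ℕ) (w : Fin r → ℤ), (b w = 0 ∨ b w = -1) → ∀ x ∈ 𝒜 (d, d • z.ν + w),
      E x ∈ mx z.q * mx z.q := by
    intro d w hbw x hx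
    refine mem_sq_of_tangent hX z (hE0 x) ?_
    intro ω t ht htw
    by_contra hne
    have h4 := htw d _ (E x) (hE d _ x hx) hne
    have h5 : ω = w - v := by
      have h6 : d • z.ν + w - v = d • z.ν + ω := h4
      have h7 : d • z.ν + (w - v) = d • z.ν + ω := by rw [← h6]; abel
      exact (add_left_cancel h7).symm
    have h6 : b ω = b w - 2 := by rw [h5, map_sub, hb]
    have hω0 : ω ≠ 0 := by
      rintro rfl
      rw [map_zero] at h6
      rcases hbw with h | h <;> rw [h] at h6 <;> norm_num at h6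
    have h7 : z.Pi ω := tangentWeight_of_ne z.fix hω0 ht htw (fun h0 => hne (by rw [h0]; rfl))
    rcases hw ω h7 with h | h | h
    · rw [h, hbη] at h6
      rcases hbw with h' | h' <;> rw [h'] at h6 <;> norm_num at h6
    · rw [h, map_add, hbη, hb] at h6
      rcases hbw with h' | h' <;> rw [h'] at h6 <;> norm_num at h6
    · rw [h] at h6
      rcases hbw with h' | h' <;> rw [h'] at h6 <;> norm_num at h6
  -- the lift of an element to a primitive element
  have hlift : ∀ (d : ℕ) (w : Fin r → ℤ) (c : ℕ), (c = 0 ∨ c = 1) → b w = -(c : ℂ) →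
      ∀ x ∈ 𝒜 (d, d • z.ν + w), ∃ y ∈ 𝒜 (d, d • z.ν + w), E y = 0 ∧
        y - x ∈ mx z.q * mx z.q := by
    intro d w c hc hbw x hx
    obtain ⟨j, hj⟩ := hnilE x
    have hz : ∀ m : ℕ, e^[m] (0 : R) = 0 := fun m => iterate_zero' e m
    obtain ⟨s, hs, hs'⟩ := exists_prim (w := c) (S := 𝒜 (d, d • z.ν + w)) h1 h2
      (fun s hs => by
        have h4 := hF d _ _ (hE d _ s hs)
        rwa [sub_neg_eq_add, sub_add_cancel] at h4)
      (fun s hs => by
        change L s = _
        rw [hlam d w s hs, hbw, neg_smul, neg_neg])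
      j x hx (by rw [Function.iterate_succ_apply', hj, map_zero])
    refine ⟨x + F (E s), Submodule.add_mem _ hx ?_, hs', ?_⟩
    · have h4 := hF d _ _ (hE d _ s hs)
      rwa [sub_neg_eq_add, sub_add_cancel] at h4
    · rw [add_sub_cancel_left]
      refine map_sq hF0 (hEsq d w ?_ s hs)
      rcases hc with h | h
      · left
        rw [hbw, h, Nat.cast_zero, neg_zero]
      · right
        rw [hbw, h, Nat.cast_one]
  have hinv : ∀ (d : ℕ) (w : Fin r → ℤ), b w = 0 → ∀ y ∈ 𝒜 (d, d • z.ν + w), E y = 0 →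
      F y = 0 := by
    intro d w hbw y hy hEy
    have h4 := prim_pow_zero (n := 0) (x := y) h1 h3 (by
      change L y = _
      rw [hlam d w y hy, hbw, zero_smul, neg_zero, Nat.cast_zero, zero_smul]) hEy (hnilF y)
    exact h4
  have hkill : ∀ t : R →ₗ[ℂ] ℂ, IsTangent z.q t → ∀ y ∈ mx z.q * mx z.q, t y = 0 :=
    fun t ht y hy => Tan.sq (q := z.q) ht (by rw [pow_two]; exact hy)
  -- `x` and `x'`
  obtain ⟨i0, hi0⟩ := (hPi η).1 hη
  obtain ⟨hu0, hqu0, t0, ht0, ht0w, ht0u⟩ := hcrd i0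
  rw [hi0] at hu0 ht0w
  obtain ⟨x, hxA, hEx, hxu⟩ := hlift (du i0) η 1 (Or.inr rfl) (by rw [hbη, Nat.cast_one]) (u i0) hu0
  have ht0x : t0 x = t0 (u i0) := by
    have h4 := hkill t0 ht0 _ hxu
    rw [map_sub, sub_eq_zero] at h4
    exact h4
  have hxsq : x ∉ mx z.q * mx z.q := fun h => ht0u (by rw [← ht0x]; exact hkill t0 ht0 x h)
  have hx0 : x ≠ 0 := fun h => hxsq (by rw [h]; exact Submodule.zero_mem _)
  have hsq_le : mx z.q * mx z.q ≤ mx z.q := Ideal.mul_le_right
  have hqx : z.q x = 0 := by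
    have h4 := mem_mx.mp (hsq_le hxu)
    rw [map_sub, hqu0, sub_zero] at h4
    exact h4
  have hLxx : L x = x := by rw [hlam _ η x hxA, hbη, neg_smul, one_smul, neg_neg]
  set x' : R := F x with hx'
  have hxA' : x' ∈ 𝒜 (du i0, du i0 • z.ν + (η + v)) := by
    have h4 := hF _ _ x hxA
    have h5 : du i0 • z.ν + η - -v = du i0 • z.ν + (η + v) := by abel
    rwa [h5] at h4
  have hEx' : E x' = x := by
    have h4 := hLx x
    rw [hLxx, hEx, map_zero, sub_zero] at h4
    exact h4.symm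
  have hFx' : F x' = 0 := by
    have h4 := prim_pow_zero (n := 1) (x := x) h1 h3 (by
      change L x = _
      rw [hLxx, Nat.cast_one, one_smul]) hEx (hnilF x)
    exact h4
  have hxsq' : x' ∉ mx z.q * mx z.q := fun h => hxsq (by
    rw [← hEx']
    exact map_sq hE0 h)
  have hx0' : x' ≠ 0 := fun h => hxsq' (by rw [h]; exact Submodule.zero_mem _)
  have hLx' : L x' = -x' := by rw [hLx, hFx', hEx', map_zero, zero_sub]
  obtain ⟨t1, ht1, ht1w, ht1x⟩ : ∃ t1 : R →ₗ[ℂ] ℂ, IsTangent z.q t1 ∧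
      HasWeight 𝒜 z.ν (η + v) t1 ∧ t1 x' ≠ 0 := by
    by_contra hcon
    push Not at hcon
    apply hxsq'
    refine mem_sq_of_tangent hX z (hF0 x) ?_
    intro ω t ht htw
    by_contra hne
    have h4 := htw _ _ x' hxA' hne
    have h5 : ω = η + v := (add_left_cancel h4).symm
    rw [h5] at htw
    exact hne (hcon t ht htw)
  -- the invariant `f1`
  obtain ⟨f1, hf1A, hEf1, hf1f⟩ := hlift 1 0 0 (Or.inl rfl) (by rw [map_zero, Nat.cast_zero, neg_zero])
    f0 (by rw [one_smul, add_zero]; exact hf0)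
  have hFf1 := hinv 1 0 (map_zero b) f1 hf1A hEf1
  have hqf1 : z.q f1 = 1 := by
    have h4 := mem_mx.mp (hsq_le hf1f)
    rw [map_sub, hf1, sub_eq_zero] at h4
    exact h4
  -- the other coordinates
  have hprop : ∀ (w : Fin r → ℤ) (t : R →ₗ[ℂ] ℂ), IsTangent z.q t → HasWeight 𝒜 z.ν w t →
      (∀ t t' : R →ₗ[ℂ] ℂ, IsTangent z.q t → HasWeight 𝒜 z.ν w t → IsTangent z.q t' →
        HasWeight 𝒜 z.ν w t' → ∃ c c' : ℂ, (c ≠ 0 ∨ c' ≠ 0) ∧ ∀ h, c * t h + c' * t' h = 0) →
      ∀ (d d' : ℕ) (y y' : R), y ∈ 𝒜 (d, d • z.ν + w) → z.q y = 0 → y' ∈ 𝒜 (d', d' • z.ν + w) →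
        z.q y' = 0 → t y ≠ 0 → ∃ c : ℂ, y' - c • y ∈ mx z.q * mx z.q := by
    intro w t ht htw hmul d d' y y' hy hqy hy' hqy' hty
    refine ⟨t y' / t y, ?_⟩
    refine mem_sq_of_tangent hX z (by rw [map_sub, map_smul, hqy, hqy', smul_zero, sub_zero]) ?_
    intro ω t' ht' htw'
    by_cases hω : ω = w
    · rw [hω] at htw'
      obtain ⟨c, c', hcc, hrel⟩ := hmul t t' ht htw ht' htw'
      have hc' : c' ≠ 0 := by
        intro h0
        have h4 := hrel y
        rw [h0, zero_mul, add_zero] at h4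
        rcases mul_eq_zero.1 h4 with h5 | h5
        · rcases hcc with h6 | h6
          · exact h6 h5
          · exact h6 h0
        · exact hty h5
      have h4 := hrel y
      have h5 := hrel y'
      have h6 : c' * t' (y' - (t y' / t y) • y) = 0 := by
        rw [map_sub, map_smul, smul_eq_mul]
        have h7 : t y' / t y * t y = t y' := div_mul_cancel₀ _ hty
        linear_combination h5 - (t y' / t y) * h4 + c * h7
      exact (mul_eq_zero.1 h6).resolve_left hc'
    · have h4 : t' y = 0 := by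
        by_contra hne
        exact hω (add_left_cancel (htw' _ _ y hy hne)).symm
      have h5 : t' y' = 0 := by
        by_contra hne
        exact hω (add_left_cancel (htw' _ _ y' hy' hne)).symm
      rw [map_sub, map_smul, h4, h5, smul_zero, sub_zero]
  have hs : ∀ i, ∃ s : R, (s = x ∨ s = x' ∨ (E s = 0 ∧ F s = 0)) ∧ z.q s = 0 ∧
      ∃ c : ℂ, u i - c • s ∈ mx z.q * mx z.q := by
    intro i
    obtain ⟨hui, hqui, ti, hti, htiw, htiu⟩ := hcrd i
    have hwi := (hPi (wt (k i))).2 ⟨i, rfl⟩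
    rcases hw _ hwi with h | h | h
    · rw [h] at hui
      obtain ⟨c, hc⟩ := hprop η t0 ht0 ht0w hm _ _ x (u i) hxA hqx hui hqui
        (by rw [ht0x]; exact ht0u)
      exact ⟨x, Or.inl rfl, hqx, c, hc⟩
    · rw [h] at hui
      obtain ⟨c, hc⟩ := hprop (η + v) t1 ht1 ht1w hm' _ _ x' (u i) hxA' (hF0 x) hui hqui ht1x
      exact ⟨x', Or.inr (Or.inl rfl), hF0 x, c, hc⟩
    · obtain ⟨y, hyA, hEy, hyu⟩ := hlift (du i) _ 0 (Or.inl rfl)
        (by rw [h, Nat.cast_zero, neg_zero]) (u i) hui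
      refine ⟨y, Or.inr (Or.inr ⟨hEy, hinv _ _ h y hyA hEy⟩), ?_, 1, ?_⟩
      · have h4 := mem_mx.mp (hsq_le hyu)
        rw [map_sub, hqui, sub_zero] at h4
        exact h4
      · rw [one_smul, ← neg_sub]
        exact (Ideal.neg_mem_iff _).mpr hyu
  choose s hs1 hs2 hs3 using hs
  set S : Set R := Set.range s ∪ {f1 - 1} with hS
  have hmS : mx z.q ≤ Ideal.span S ⊔ mx z.q * mx z.q := by
    refine hmx.trans (sup_le (sup_le ?_ ?_) le_sup_right)
    · rw [Ideal.span_le]
      rintro _ ⟨i, rfl⟩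
      obtain ⟨c, hc⟩ := hs3 i
      have h4 : u i = c • s i + (u i - c • s i) := by ring
      rw [SetLike.mem_coe, h4]
      refine Ideal.add_mem _ (Ideal.mem_sup_left ?_) (Ideal.mem_sup_right hc)
      rw [Algebra.smul_def]
      exact Ideal.mul_mem_left _ _ (Ideal.subset_span (Or.inl ⟨i, rfl⟩))
    · rw [Ideal.span_le, Set.singleton_subset_iff, SetLike.mem_coe]
      have h4 : f0 - 1 = (f1 - 1) - (f1 - f0) := by ring
      rw [h4]
      exact Ideal.sub_mem _ (Ideal.mem_sup_left (Ideal.subset_span (Or.inr rfl)))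
        (Ideal.mem_sup_right hf1f)
  set Gd : Derivation ℂ R R := x ^ 2 • F - x' ^ 2 • E - (x * x') • L with hGd
  have hGdx : ∀ y, Gd y = x ^ 2 * F y - x' ^ 2 * E y - (x * x') * L y := fun y => rfl
  have hinvG : ∀ y, E y = 0 → F y = 0 → Gd y = 0 := by
    intro y hEy hFy
    rw [hGdx, hLx, hEy, hFy, map_zero, map_zero]
    ring
  have hGS : ∀ y ∈ S, Gd y = 0 := by
    rintro y (⟨i, rfl⟩ | hy)
    · rcases hs1 i with h | h | ⟨h, h'⟩
      · rw [h, hGdx, hEx, hLxx, ← hx']
        ring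
      · rw [h, hGdx, hEx', hLx', hFx']
        ring
      · exact hinvG _ h h'
    · rw [Set.mem_singleton_iff] at hy
      rw [hy, map_sub, hinvG f1 hEf1 hFf1, Derivation.map_one_eq_zero, sub_zero]
  have hSq : ∀ y ∈ S, z.q y = 0 := by
    rintro y (⟨i, rfl⟩ | hy)
    · exact hs2 i
    · rw [Set.mem_singleton_iff] at hy
      rw [hy, map_sub, hqf1, map_one, sub_self]
  have hG0 := der_zero hmS hSq hGS
  obtain ⟨D, hD⟩ := exists_quot (E := E) (F := F) (L := L) hx0 hx0' (fun y => by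
    have h4 := hG0 y
    rw [hGdx] at h4
    linear_combination h4)
  have hDh : ∀ d m, ∀ h ∈ 𝒜 (d, m), D h ∈ 𝒜 (d, m) := by
    intro d m h hh
    have h4 : HK 𝒜 (d : ℤ) m (iK (D h)) := by
      refine ⟨du i0 + d, du i0, du i0 • z.ν + (η + v) + (m - v), du i0 • z.ν + η, x' * E h, ?_, x,
        hxA, hx0, ?_, ?_, ?_⟩
      · exact SetLike.mul_mem_graded hxA' (hE d m h hh)
      · rw [← hD h]
        exact (map_mul (algebraMap R (FractionRing R)) x (D h)).symm
      · push_cast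
        ring
      · abel
    exact h4.mem
  obtain ⟨a', β, hβ⟩ := tor D hDh
  have hDsm : ∀ (μ : ℂ) (y : R), D y = μ • y → ∀ c : ℂ, D (c • y) = (c * μ) • y := by
    intro μ y hy c
    rw [Derivation.map_smul, hy, smul_smul]
  have heig : ∀ (d : ℕ) (m : Fin r → ℤ) (μ : ℂ) (y : R), y ∈ 𝒜 (d, m) → y ≠ 0 → D y = μ • y →
      (d : ℂ) * a' + β m = μ := by
    intro d m μ y hy hy0 hDy
    obtain ⟨k, hk⟩ := hβ d m y hy
    exact eig hy0 (hDsm μ y hDy) hk
  have hDz : ∀ y, E y = 0 → D y = 0 := fun y hy => by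
    have h4 := hD y
    rw [hy, mul_zero] at h4
    exact (mul_eq_zero.1 h4).resolve_left hx0
  have hf1ne : f1 ≠ 0 := by
    rintro h
    rw [h, map_zero] at hqf1
    exact zero_ne_one hqf1
  have hν : a' + β z.ν = 0 := by
    have h4 := heig 1 _ 0 f1 hf1A hf1ne (by rw [hDz f1 hEf1, zero_smul])
    rw [one_smul, add_zero, Nat.cast_one, one_mul] at h4
    exact h4
  have heig' : ∀ (d : ℕ) (w : Fin r → ℤ) (μ : ℂ) (y : R), y ∈ 𝒜 (d, d • z.ν + w) → y ≠ 0 →
      D y = μ • y → β w = μ := by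
    intro d w μ y hy hy0 hDy
    have h4 := heig d _ μ y hy hy0 hDy
    rw [map_add, map_nsmul, nsmul_eq_mul] at h4
    linear_combination h4 - (d : ℂ) * hν
  refine ⟨β, ?_, ?_, ?_⟩
  · exact heig' _ η 0 x hxA hx0 (by rw [hDz x hEx, zero_smul])
  · refine heig' _ (η + v) 1 x' hxA' hx0' ?_
    rw [one_smul]
    apply mul_left_cancel₀ hx0
    rw [hD, hEx']
    ring
  · intro w hw1 hw2
    obtain ⟨i, rfl⟩ := (hPi w).1 hw1
    obtain ⟨hui, hqui, ti, hti, htiw, htiu⟩ := hcrd i
    obtain ⟨y, hyA, hEy, hyu⟩ := hlift (du i) _ 0 (Or.inl rfl)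
      (by rw [hw2, Nat.cast_zero, neg_zero]) (u i) hui
    refine heig' _ _ 0 y hyA ?_ (by rw [hDz y hEy, zero_smul])
    rintro rfl
    have h4 := hkill ti hti _ hyu
    rw [zero_sub, map_neg, neg_eq_zero] at h4
    exact htiu h4

end Vale.Agent.P280.H143
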